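import Vale.Agent.P067.Alld.G.Spectral

/-!
P067, module G: a small cocycle which is minimal in every link is zero (fat faces).

Faces are indexed by their type set and a chamber; `F A g` is the value on the face of type `A`
of the chamber `g`.
-/

set_option linter.unusedSectionVars false

namespace Vale.Agent.P067.Alld.G

open Finset

/-- Thresholds product. -/
noncomputable def thr (δ : ℝ) : ℕ → ℝ
  | 0 => 1
  | j + 1 => δ * thr δ j ^ 2

theorem thr_pos {δ : ℝ} (h : 0 < δ) : ∀ j, 0 < thr δ j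
  | 0 => one_pos
  | j + 1 => mul_pos h (pow_pos (thr_pos h j) 2)

theorem thr_le_one {δ : ℝ} (h0 : 0 < δ) (h1 : δ ≤ 1) : ∀ j, thr δ j ≤ 1
  | 0 => le_rfl
  | j + 1 => mul_le_one₀ h1 (sq_nonneg _) (pow_le_one₀ (thr_pos h0 j).le (thr_le_one h0 h1 j))

theorem thr_anti {δ : ℝ} (h0 : 0 < δ) (h1 : δ ≤ 1) : Antitone (thr δ) :=
  antitone_nat_of_succ_le fun j => by
    show δ * thr δ j ^ 2 ≤ thr δ j
    have h2 := thr_le_one h0 h1 j
    have h3 := thr_pos h0 j
    have h4 : δ * thr δ j ≤ 1 := mul_le_one₀ h1 h3.le h2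
    nlinarith [mul_le_mul_of_nonneg_left h4 h3.le]

variable {G : Type} [Group G] [Fintype G] {n : ℕ} (H : Fin n → Subgroup G)

/-- Indicator. -/
noncomputable def ind (P : G → Prop) (g : G) : ℝ :=
  haveI := Classical.propDecidable (P g)
  if P g then 1 else 0

theorem ind_nonneg (P : G → Prop) (g : G) : 0 ≤ ind P g := by
  unfold ind; split_ifs <;> norm_num

theorem ind_le_one (P : G → Prop) (g : G) : ind P g ≤ 1 := by
  unfold ind; split_ifs <;> norm_num

theorem ind_sq (P : G → Prop) (g : G) : ind P g ^ 2 = ind P g := by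
  unfold ind; split_ifs <;> norm_num

theorem ind_eq_one {P : G → Prop} {g : G} (h : P g) : ind P g = 1 := if_pos h

theorem ind_eq_zero {P : G → Prop} {g : G} (h : ¬ P g) : ind P g = 0 := if_neg h

theorem inv_ind {K : Subgroup G} {P : G → Prop} (h : ∀ a, ∀ u ∈ K, (P (a * u) ↔ P a)) :
    Inv K (ind P) := fun a u hu => by
  by_cases hP : P a
  · rw [ind_eq_one hP, ind_eq_one ((h a u hu).2 hP)]
  · rw [ind_eq_zero hP, ind_eq_zero (fun h' => hP ((h a u hu).1 h'))]

variable (m : ℕ) (δ : ℝ) (F : Finset (Fin n) → G → ZMod 2)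

/-- Threshold in cardinality `l`. -/
noncomputable def eta (l : ℕ) : ℝ := δ * thr δ (m - l - 1)

/-- Fat faces, by downward recursion on the cardinality. -/
noncomputable def fatJ : ℕ → Finset (Fin n) → G → Prop
  | 0, A, g => F A g ≠ 0
  | j + 1, A, g => eta m δ A.card ≤
      ∑ l ∈ Aᶜ, proj (inter H A) (ind (fatJ j (insert l A))) g

/-- Fat faces. -/
def Fat (A : Finset (Fin n)) (g : G) : Prop := A.card ≤ m ∧ fatJ H m δ F (m - A.card) A g

/-- The mass of the fat faces of one cardinality. -/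
noncomputable def fatW (k : ℕ) : ℝ :=
  ∑ A ∈ (univ : Finset (Fin n)).powersetCard k, ∑ g, ind (Fat H m δ F A) g

variable {H m δ F}

theorem fat_top {A : Finset (Fin n)} (hA : A.card = m) (g : G) :
    Fat H m δ F A g ↔ F A g ≠ 0 := by
  simp [Fat, hA, fatJ]

theorem fat_lt {A : Finset (Fin n)} (hA : A.card < m) (g : G) :
    Fat H m δ F A g ↔ eta m δ A.card ≤
      ∑ l ∈ Aᶜ, proj (inter H A) (ind (Fat H m δ F (insert l A))) g := by
  obtain ⟨j, hj⟩ := Nat.exists_eq_succ_of_ne_zero (Nat.sub_ne_zero_of_lt hA)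
  have e : ∀ l ∈ Aᶜ, Fat H m δ F (insert l A) = fatJ H m δ F j (insert l A) := by
    intro l hl
    funext x
    have hc : (insert l A).card = A.card + 1 := card_insert_of_notMem (mem_compl.1 hl)
    rw [Fat, hc, show m - (A.card + 1) = j by omega]
    exact propext ⟨fun h => h.2, fun h => ⟨hA, h⟩⟩
  rw [Fat, hj, fatJ]
  have e' : ∑ l ∈ Aᶜ, proj (inter H A) (ind (Fat H m δ F (insert l A))) g
      = ∑ l ∈ Aᶜ, proj (inter H A) (ind (fatJ H m δ F j (insert l A))) g :=
    sum_congr rfl fun l hl => by rw [e l hl]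
  rw [e']
  exact ⟨fun h => h.2, fun h => ⟨hA.le, h⟩⟩

theorem fat_inv (hF : ∀ B a, ∀ u ∈ inter H B, F B (a * u) = F B a) (A : Finset (Fin n)) (a : G)
    (u : G) (hu : u ∈ inter H A) : Fat H m δ F A (a * u) ↔ Fat H m δ F A a := by
  rcases lt_trichotomy A.card m with h | h | h
  · rw [fat_lt h, fat_lt h, sum_congr rfl fun l _ => inv_proj _ _ a u hu]
  · rw [fat_top h, fat_top h, hF A a u hu]
  · exact ⟨fun h' => absurd h'.1 (by omega), fun h' => absurd h'.1 (by omega)⟩

theorem fatW_nonneg (k : ℕ) : 0 ≤ fatW H m δ F k :=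
  sum_nonneg fun A _ => sum_nonneg fun g _ => ind_nonneg _ g

theorem fatW_step (k : ℕ) (hk : k < m) (hkn : k < n) :
    eta m δ k * fatW H m δ F k ≤ n * fatW H m δ F (k + 1) := by
  classical
  have h1 : eta m δ k * fatW H m δ F k ≤
      ∑ A ∈ (univ : Finset (Fin n)).powersetCard k, ∑ l ∈ Aᶜ,
        ∑ g, ind (Fat H m δ F (insert l A)) g := by
    rw [fatW, mul_sum]
    refine sum_le_sum fun A hA => ?_
    have hc := (mem_powersetCard.1 hA).2
    calc eta m δ k * ∑ g, ind (Fat H m δ F A) g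
        ≤ ∑ g, ∑ l ∈ Aᶜ, proj (inter H A) (ind (Fat H m δ F (insert l A))) g := by
          rw [mul_sum]
          refine sum_le_sum fun g _ => ?_
          by_cases hf : Fat H m δ F A g
          · rw [ind_eq_one hf, mul_one, ← hc]
            exact (fat_lt (by omega) g).1 hf
          · rw [ind_eq_zero hf, mul_zero]
            exact sum_nonneg fun l _ => proj_nonneg (ind_nonneg _) g
      _ = _ := by rw [sum_comm]; exact sum_congr rfl fun l _ => sum_proj _
  refine h1.trans ?_
  rw [sum_sigma' ((univ : Finset (Fin n)).powersetCard k) (fun A => Aᶜ)]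
  have h2 : ∑ x ∈ ((univ : Finset (Fin n)).powersetCard k).sigma (fun A => Aᶜ),
      ∑ g, ind (Fat H m δ F (insert x.2 x.1)) g
      = ∑ x ∈ ((univ : Finset (Fin n)).powersetCard (k + 1)).sigma (fun B => B),
          ∑ g, ind (Fat H m δ F x.1) g := by
    refine sum_bij' (fun x _ => ⟨insert x.2 x.1, x.2⟩) (fun x _ => ⟨x.1.erase x.2, x.2⟩)
      ?_ ?_ ?_ ?_ ?_
    · rintro ⟨A, l⟩ hx
      simp only [mem_sigma, mem_powersetCard, subset_univ, true_and, mem_compl] at hx ⊢
      exact ⟨by rw [card_insert_of_notMem hx.2, hx.1], mem_insert_self _ _⟩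
    · rintro ⟨B, l⟩ hx
      simp only [mem_sigma, mem_powersetCard, subset_univ, true_and, mem_compl] at hx ⊢
      exact ⟨by rw [card_erase_of_mem hx.2, hx.1]; omega, by simp⟩
    · rintro ⟨A, l⟩ hx
      simp only [mem_sigma, mem_compl] at hx
      simp [erase_insert hx.2]
    · rintro ⟨B, l⟩ hx
      simp only [mem_sigma] at hx
      simp [insert_erase hx.2]
    · rintro ⟨A, l⟩ _; rfl
  rw [h2, sum_sigma, fatW, mul_sum]
  refine sum_le_sum fun B hB => ?_
  dsimp only
  rw [sum_const, nsmul_eq_mul, (mem_powersetCard.1 hB).2]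
  exact mul_le_mul_of_nonneg_right (by exact_mod_cast hkn) (sum_nonneg fun g _ => ind_nonneg _ g)

theorem thr_fatW (hδ : 0 < δ) (hmn : m ≤ n) (hn : 1 ≤ n) : ∀ j ≤ m,
    thr δ j * fatW H m δ F (m - j) ≤ (n : ℝ) ^ j * fatW H m δ F m := by
  intro j
  induction j with
  | zero => intro _; simp [thr]
  | succ j ih =>
    intro hj
    have h1 := fatW_step (H := H) (δ := δ) (F := F) (m := m) (m - (j + 1)) (by omega) (by omega)
    rw [eta, show m - (m - (j + 1)) - 1 = j by omega, show m - (j + 1) + 1 = m - j by omega] at h1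
    have h2 := mul_le_mul_of_nonneg_left h1 (thr_pos hδ j).le
    have h3 := mul_le_mul_of_nonneg_left (ih (by omega)) (Nat.cast_nonneg (α := ℝ) n)
    calc thr δ (j + 1) * fatW H m δ F (m - (j + 1))
        = thr δ j * (δ * thr δ j * fatW H m δ F (m - (j + 1))) := by rw [thr]; ring
      _ ≤ thr δ j * (n * fatW H m δ F (m - j)) := h2
      _ = n * (thr δ j * fatW H m δ F (m - j)) := by ring
      _ ≤ n * ((n : ℝ) ^ j * fatW H m δ F m) := h3
      _ = _ := by rw [pow_succ]; ring

theorem thr_fatW' (hδ : 0 < δ) (hmn : m ≤ n) (hn : 1 ≤ n) {b : ℕ} (hb : b ≤ m) :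
    thr δ (m - b) * fatW H m δ F b ≤ (n : ℝ) ^ m * fatW H m δ F m := by
  have h := thr_fatW (H := H) (F := F) hδ hmn hn (m - b) (by omega)
  rw [show m - (m - b) = b by omega] at h
  exact h.trans (mul_le_mul_of_nonneg_right
    (pow_le_pow_right₀ (by exact_mod_cast hn) (by omega)) (fatW_nonneg m))

/-- Above a face which is not fat there are few fat faces. -/
theorem proj_fat_le (hF : ∀ A a, ∀ u ∈ inter H A, F A (a * u) = F A a) (hδ : 0 < δ)
    (A E : Finset (Fin n)) (hA : A.card ≤ m) (hEA : E ⊂ A) (g : G)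
    (hE : ¬ Fat H m δ F E g) :
    proj (inter H E) (ind (Fat H m δ F A)) g ≤ ∑ l ∈ Ico E.card A.card, eta m δ l := by
  classical
  induction A using Finset.strongInduction generalizing g with
  | _ A ih =>
  have hη : ∀ l, 0 ≤ eta m δ l := fun l => (mul_pos hδ (thr_pos hδ _)).le
  have base : ∀ (E : Finset (Fin n)) (l : Fin n) (g : G), l ∉ E → (insert l E).card ≤ m →
      ¬ Fat H m δ F E g →
        proj (inter H E) (ind (Fat H m δ F (insert l E))) g ≤ eta m δ E.card := by
    intro E l g hl hc hE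
    rw [card_insert_of_notMem hl] at hc
    rw [fat_lt (by omega), not_le] at hE
    refine le_trans ?_ hE.le
    exact single_le_sum (f := fun l => proj (inter H E) (ind (Fat H m δ F (insert l E))) g)
      (fun l _ => proj_nonneg (ind_nonneg _) g) (mem_compl.2 hl)
  obtain ⟨l, hlA, hlE⟩ := exists_of_ssubset hEA
  have hc : (A.erase l).card = A.card - 1 := card_erase_of_mem hlA
  have hApos : 0 < A.card := card_pos.2 ⟨l, hlA⟩
  have hsub : E ⊆ A.erase l := subset_erase.2 ⟨hEA.subset, hlE⟩
  rcases hsub.eq_or_ssubset with h | h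
  · have e : insert l E = A := by rw [h, insert_erase hlA]
    have hb := base E l g hlE (e ▸ hA) hE
    rw [e] at hb
    refine hb.trans (single_le_sum (fun l _ => hη l) (mem_Ico.2 ⟨le_rfl, ?_⟩))
    exact card_lt_card hEA
  · have h1 : proj (inter H E) (ind (Fat H m δ F (A.erase l))) g
        ≤ ∑ k ∈ Ico E.card (A.card - 1), eta m δ k := by
      have := ih (A.erase l) (erase_ssubset hlA) (by omega) h g hE
      rwa [hc] at this
    set N := fun x => 1 - ind (Fat H m δ F (A.erase l)) x
    set χ := N * ind (Fat H m δ F A)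
    have hNinv : Inv (inter H (A.erase l)) N := fun a u hu => by
      simp only [N, inv_ind (fun a u hu => fat_inv hF (A.erase l) a u hu) a u hu]
    have hχ : ∀ x, proj (inter H (A.erase l)) χ x ≤ eta m δ (A.card - 1) := by
      intro x
      rw [proj_mul_inv hNinv, Pi.mul_apply]
      by_cases hx : Fat H m δ F (A.erase l) x
      · simp [N, ind_eq_one hx, hη]
      · have := base (A.erase l) l x (by simp) (by rw [insert_erase hlA]; exact hA) hx
        rw [insert_erase hlA, hc] at this
        simpa [N, ind_eq_zero hx] using this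
    have h2 : proj (inter H E) χ g ≤ eta m δ (A.card - 1) := by
      rw [← proj_proj (inter_anti H hsub) χ]
      exact proj_le_one_of_le _ hχ g
    have h3 : proj (inter H E) (ind (Fat H m δ F A)) g
        ≤ proj (inter H E) (χ + ind (Fat H m δ F (A.erase l))) g := by
      refine proj_mono (fun x => ?_) g
      simp only [χ, N, Pi.add_apply, Pi.mul_apply]
      nlinarith [ind_nonneg (Fat H m δ F (A.erase l)) x, ind_le_one (Fat H m δ F A) x,
        ind_nonneg (Fat H m δ F A) x]
    rw [proj_add, Pi.add_apply] at h3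
    have hlt : E.card ≤ A.card - 1 := hc ▸ card_le_card hsub
    rw [show A.card = A.card - 1 + 1 by omega, sum_Ico_succ_top hlt]
    linarith

/-- The mixing hypothesis. -/
def Mix (κ : ℝ) : Prop :=
  ∀ (A B : Finset (Fin n)) (f g : G → ℝ), Inv (inter H A) f → Inv (inter H B) g →
    proj (inter H (A ∩ B)) f = 0 → proj (inter H (A ∩ B)) g = 0 →
      ∑ a, f a * g a ≤ κ * (∑ a, f a ^ 2 + ∑ a, g a ^ 2) / 2

/-- Few chambers carry two fat faces with a meet that is not fat. -/
theorem pair_bound (hF : ∀ A a, ∀ u ∈ inter H A, F A (a * u) = F A a) (hδ : 0 < δ) (hδ1 : δ ≤ 1)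
    (hmn : m ≤ n) (hn : 1 ≤ n) {κ : ℝ} (hκ : 0 ≤ κ) (hmix : Mix (H := H) κ)
    (A B : Finset (Fin n)) (hB : B.card ≤ m) (hAB : A.card ≤ B.card) :
    ∑ g, ind (Fat H m δ F A) g * ind (Fat H m δ F B) g * (1 - ind (Fat H m δ F (A ∩ B)) g) ≤
      (n : ℝ) ^ m * fatW H m δ F m * (n * δ + κ / thr δ m) := by
  classical
  have hW : 0 ≤ fatW H m δ F m := fatW_nonneg m
  by_cases hEA : A ∩ B = A
  · rw [hEA]
    have hT := thr_pos hδ m
    have h0 : ∀ g, ind (Fat H m δ F A) g * ind (Fat H m δ F B) g *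
        (1 - ind (Fat H m δ F A) g) = 0 := fun g => by
      have := ind_sq (Fat H m δ F A) g
      linear_combination (-ind (Fat H m δ F B) g) * this
    simp only [h0, sum_const_zero]
    positivity
  have hss : A ∩ B ⊂ A := inter_subset_left.ssubset_of_ne hEA
  set E := A ∩ B
  set N := fun x => 1 - ind (Fat H m δ F E) x
  set φ := N * ind (Fat H m δ F A)
  set ψ := ind (Fat H m δ F B)
  have hN : Inv (inter H E) N := fun a u hu => by
    simp only [N, inv_ind (fun a u hu => fat_inv hF E a u hu) a u hu]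
  have hNA : Inv (inter H A) N := hN.mono (inter_anti H inter_subset_left)
  have hφ : Inv (inter H A) φ := fun a u hu => by
    simp only [φ, Pi.mul_apply, hNA a u hu,
      inv_ind (fun a u hu => fat_inv hF A a u hu) a u hu]
  have hψ : Inv (inter H B) ψ := inv_ind fun a u hu => fat_inv hF B a u hu
  have i1 : Inv (inter H A) (φ - proj (inter H E) φ) :=
    hφ.sub ((inv_proj _ φ).mono (inter_anti H inter_subset_left))
  have i2 : Inv (inter H B) (ψ - proj (inter H E) ψ) :=
    hψ.sub ((inv_proj _ ψ).mono (inter_anti H inter_subset_right))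
  have h1 := hmix A B _ _ i1 i2 (proj_sub_proj φ) (proj_sub_proj ψ)
  have h2 := sum_sub_proj_sq_le (K := inter H E) φ
  have h3 := sum_sub_proj_sq_le (K := inter H E) ψ
  have hD : ∀ g, proj (inter H E) φ g ≤ n * δ * thr δ (m - B.card) := by
    intro g
    rw [proj_mul_inv hN, Pi.mul_apply]
    have hpos : 0 ≤ (n : ℝ) * δ * thr δ (m - B.card) := by
      have := thr_pos hδ (m - B.card)
      positivity
    by_cases hg : Fat H m δ F E g
    · simpa [N, ind_eq_one hg] using hpos
    · rw [show N g = 1 by simp [N, ind_eq_zero hg], one_mul]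
      refine (proj_fat_le hF hδ A E (by omega) hss g hg).trans ?_
      have : ∀ l ∈ Ico E.card A.card, eta m δ l ≤ δ * thr δ (m - B.card) := fun l hl =>
        mul_le_mul_of_nonneg_left
          (thr_anti hδ hδ1 (by have := (mem_Ico.1 hl).2; omega)) hδ.le
      refine (sum_le_card_nsmul _ _ _ this).trans ?_
      rw [nsmul_eq_mul, Nat.card_Ico, mul_assoc]
      refine mul_le_mul_of_nonneg_right ?_ (mul_pos hδ (thr_pos hδ _)).le
      exact_mod_cast (show A.card - E.card ≤ n by
        have := card_le_univ A; rw [Fintype.card_fin] at this; omega)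
  have hψsum : ∑ g, ψ g ≤ fatW H m δ F B.card :=
    single_le_sum (f := fun B => ∑ g, ind (Fat H m δ F B) g)
      (fun A _ => sum_nonneg fun g _ => ind_nonneg _ g)
      (mem_powersetCard.2 ⟨subset_univ _, rfl⟩)
  have hAsum : ∑ g, ind (Fat H m δ F A) g ≤ fatW H m δ F A.card :=
    single_le_sum (f := fun B => ∑ g, ind (Fat H m δ F B) g)
      (fun A _ => sum_nonneg fun g _ => ind_nonneg _ g)
      (mem_powersetCard.2 ⟨subset_univ _, rfl⟩)
  have hmain : ∑ g, proj (inter H E) φ g * proj (inter H E) ψ g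
      ≤ (n : ℝ) ^ m * fatW H m δ F m * (n * δ) := by
    calc ∑ g, proj (inter H E) φ g * proj (inter H E) ψ g
        ≤ ∑ g, n * δ * thr δ (m - B.card) * proj (inter H E) ψ g :=
          sum_le_sum fun g _ =>
            mul_le_mul_of_nonneg_right (hD g) (proj_nonneg (ind_nonneg _) g)
      _ = n * δ * (thr δ (m - B.card) * ∑ g, ψ g) := by rw [← mul_sum, sum_proj]; ring
      _ ≤ n * δ * (thr δ (m - B.card) * fatW H m δ F B.card) := by
          have := thr_pos hδ (m - B.card)
          gcongr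
      _ ≤ n * δ * ((n : ℝ) ^ m * fatW H m δ F m) := by
          have := thr_fatW' (H := H) (F := F) hδ hmn hn hB
          gcongr
      _ = _ := by ring
  have hbig : ∀ C : Finset (Fin n), C.card ≤ m →
      fatW H m δ F C.card ≤ (n : ℝ) ^ m * fatW H m δ F m / thr δ m := fun C hC => by
    rw [le_div_iff₀ (thr_pos hδ m)]
    refine le_trans ?_ (thr_fatW' hδ hmn hn hC)
    rw [mul_comm]
    exact mul_le_mul_of_nonneg_right (thr_anti hδ hδ1 (Nat.sub_le _ _)) (fatW_nonneg _)
  have hφsq : ∑ g, φ g ^ 2 ≤ (n : ℝ) ^ m * fatW H m δ F m / thr δ m := by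
    refine le_trans (sum_le_sum fun g _ => ?_) (hAsum.trans (hbig A (by omega)))
    simp only [φ, N, Pi.mul_apply, mul_pow, ind_sq]
    have h1 := ind_nonneg (Fat H m δ F E) g
    have h2 := ind_le_one (Fat H m δ F E) g
    exact mul_le_of_le_one_left (ind_nonneg _ g) (by nlinarith)
  have hψsq : ∑ g, ψ g ^ 2 ≤ (n : ℝ) ^ m * fatW H m δ F m / thr δ m := by
    simp only [ψ, ind_sq]
    exact hψsum.trans (hbig B hB)
  have hsplit := sum_mul_eq (K := inter H E) φ ψ
  have heq : ∑ g, ind (Fat H m δ F A) g * ind (Fat H m δ F B) g *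
      (1 - ind (Fat H m δ F E) g) = ∑ g, φ g * ψ g :=
    sum_congr rfl fun g _ => by simp only [φ, ψ, N, Pi.mul_apply]; ring
  rw [heq, hsplit, mul_add]
  have h4 := mul_le_mul_of_nonneg_left (add_le_add (h2.trans hφsq) (h3.trans hψsq)) hκ
  have e : κ * ((n : ℝ) ^ m * fatW H m δ F m / thr δ m + (n : ℝ) ^ m * fatW H m δ F m / thr δ m) / 2
      = (n : ℝ) ^ m * fatW H m δ F m * (κ / thr δ m) := by ring
  linarith

/-- A fat face all of whose facets are not fat. -/
def MinFat (H : Fin n → Subgroup G) (m : ℕ) (δ : ℝ) (F : Finset (Fin n) → G → ZMod 2)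
    (C : Finset (Fin n)) (g : G) : Prop :=
  C.Nonempty ∧ Fat H m δ F C g ∧ ∀ x ∈ C, ¬ Fat H m δ F (C.erase x) g

/-- The faces of size `m` above `C` in the support. -/
noncomputable def supp (m : ℕ) (F : Finset (Fin n) → G → ZMod 2) (C : Finset (Fin n)) (g : G) : ℝ :=
  (((univ : Finset (Fin n)).powersetCard m).filter fun A => C ⊆ A ∧ F A g ≠ 0).card

/-- The support above `C` of the coboundary of the localisation at `C`. -/
noncomputable def dsupp (m : ℕ) (F : Finset (Fin n) → G → ZMod 2) (C : Finset (Fin n)) (g : G) :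
    ℝ :=
  (((univ : Finset (Fin n)).powersetCard (m + 1)).filter fun T =>
    C ⊆ T ∧ ∑ x ∈ T \ C, F (T.erase x) g ≠ 0).card

/-- A small cocycle, minimal in every link, is zero. -/
theorem small_zero (n m : ℕ) (hm : 1 ≤ m) (hmn : m + 1 ≤ n) {β : ℝ} (hβ : 0 < β) :
    ∃ μ κ : ℝ, 0 < μ ∧ 0 < κ ∧ ∀ (G : Type) [Group G] [Fintype G] (H : Fin n → Subgroup G)
      (F : Finset (Fin n) → G → ZMod 2),
      Mix (H := H) κ → (∀ A a, ∀ u ∈ inter H A, F A (a * u) = F A a) →
      (∀ T : Finset (Fin n), T.card = m + 1 → ∀ g, ∑ x ∈ T, F (T.erase x) g = 0) →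
      (∀ C : Finset (Fin n), 1 ≤ C.card → C.card ≤ m → ∀ g,
        β * proj (inter H C) (supp m F C) g ≤ proj (inter H C) (dsupp m F C) g) →
      ∑ g, supp m F ∅ g < μ * Fintype.card G →
      ∀ A : Finset (Fin n), A.card = m → ∀ g, F A g = 0 := by
  classical
  have hn : 1 ≤ n := by omega
  set K1 : ℝ := ((2 : ℝ) ^ n) ^ 2 * ((2 : ℝ) ^ n) ^ 2 * (n : ℝ) ^ m with hK1
  have hnR : (0 : ℝ) < n := by exact_mod_cast hn
  have hK1pos : 0 < K1 := by positivity
  set δ : ℝ := min 1 (β / (4 * K1 * n)) with hδdef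
  have hδ : 0 < δ := lt_min one_pos (by positivity)
  have hδ1 : δ ≤ 1 := min_le_left _ _
  have hT : 0 < thr δ m := thr_pos hδ m
  refine ⟨thr δ m / (n : ℝ) ^ m, β * thr δ m / (4 * K1), by positivity, by positivity, ?_⟩
  intro G _ _ H F hmix hF hcoc hlink hsmall
  set W := fatW H m δ F m with hWdef
  have hWsupp : W = ∑ g, supp m F ∅ g := by
    rw [hWdef, fatW, sum_comm]
    refine sum_congr rfl fun g _ => ?_
    rw [supp, card_filter, Nat.cast_sum]
    refine sum_congr rfl fun A hA => ?_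
    by_cases h : F A g ≠ 0
    · rw [ind_eq_one ((fat_top (mem_powersetCard.1 hA).2 g).2 h), if_pos ⟨empty_subset _, h⟩,
        Nat.cast_one]
    · rw [ind_eq_zero fun h' => h ((fat_top (mem_powersetCard.1 hA).2 g).1 h'),
        if_neg fun h' => h h'.2, Nat.cast_zero]
  have hempty : ∀ g, ¬ Fat H m δ F ∅ g := by
    intro g hg
    have hall : ∀ x, Fat H m δ F ∅ x := fun x => by
      have h := fat_inv hF (δ := δ) (m := m) ∅ g (g⁻¹ * x) (by simp [inter])
      rw [mul_inv_cancel_left] at h
      exact h.2 hg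
    have h0 : fatW H m δ F 0 = Fintype.card G := by
      simp [fatW, ind_eq_one (hall _)]
    have := thr_fatW' (H := H) (F := F) hδ (by omega) hn (Nat.zero_le m)
    rw [Nat.sub_zero, h0, ← hWdef, hWsupp] at this
    rw [div_mul_eq_mul_div, lt_div_iff₀ (by positivity)] at hsmall
    linarith
  have hmin : ∀ A g, Fat H m δ F A g → ∃ C, C ⊆ A ∧ MinFat H m δ F C g := by
    intro A g
    induction A using Finset.strongInduction with
    | _ A ih =>
      intro hA
      by_cases h : ∃ x ∈ A, Fat H m δ F (A.erase x) g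
      · obtain ⟨x, hx, hx'⟩ := h
        obtain ⟨C, hC, hC'⟩ := ih (A.erase x) (erase_ssubset hx) hx'
        exact ⟨C, hC.trans (erase_subset _ _), hC'⟩
      · push Not at h
        refine ⟨A, Subset.rfl, ?_, hA, h⟩
        rw [nonempty_iff_ne_empty]
        rintro rfl
        exact hempty g hA
  set pr : Finset (Finset (Fin n) × Finset (Fin n)) :=
    (univ.filter fun A : Finset (Fin n) => A.card ≤ m) ×ˢ
      (univ.filter fun A : Finset (Fin n) => A.card ≤ m) with hprdef
  let bad : G → ℝ := fun g => ∑ q ∈ pr, ind (Fat H m δ F q.1) g * ind (Fat H m δ F q.2) g *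
    (1 - ind (Fat H m δ F (q.1 ∩ q.2)) g)
  have hbad0 : ∀ g, ∀ q ∈ pr, 0 ≤ ind (Fat H m δ F q.1) g * ind (Fat H m δ F q.2) g *
      (1 - ind (Fat H m δ F (q.1 ∩ q.2)) g) := fun g q _ =>
    mul_nonneg (mul_nonneg (ind_nonneg _ g) (ind_nonneg _ g)) (sub_nonneg.2 (ind_le_one _ g))
  have hbad : ∀ C g, MinFat H m δ F C g → dsupp m F C g ≤ (2 : ℝ) ^ n * bad g := by
    intro C g hC
    rw [dsupp]
    rcases eq_empty_or_nonempty (((univ : Finset (Fin n)).powersetCard (m + 1)).filter fun T =>
      C ⊆ T ∧ ∑ x ∈ T \ C, F (T.erase x) g ≠ 0) with h | ⟨T, hT⟩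
    · rw [h, card_empty, Nat.cast_zero]
      exact mul_nonneg (by positivity) (sum_nonneg (hbad0 g))
    · simp only [mem_filter, mem_powersetCard, subset_univ, true_and] at hT
      obtain ⟨hTc, hCT, hne⟩ := hT
      have hsum := hcoc T hTc g
      rw [← sum_sdiff hCT] at hsum
      obtain ⟨x, hx, hxne⟩ : ∃ x ∈ C, F (T.erase x) g ≠ 0 := by
        refine exists_ne_zero_of_sum_ne_zero fun h0 => hne ?_
        rwa [h0, add_zero] at hsum
      have hTx : (T.erase x).card = m := by rw [card_erase_of_mem (hCT hx), hTc]; omega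
      have e : T.erase x ∩ C = C.erase x := by
        ext y; simp only [mem_inter, mem_erase]
        exact ⟨fun h => ⟨h.1.1, h.2⟩, fun h => ⟨⟨h.1, hCT h.2⟩, h.2⟩⟩
      have hone : (1 : ℝ) ≤ bad g := by
        refine le_trans (le_of_eq ?_) (single_le_sum (hbad0 g)
          (show (T.erase x, C) ∈ pr from mem_product.2 ⟨mem_filter.2 ⟨mem_univ _, hTx.le⟩,
            mem_filter.2 ⟨mem_univ _, hC.2.1.1⟩⟩))
        rw [ind_eq_one ((fat_top hTx g).2 hxne), ind_eq_one hC.2.1, e,
          ind_eq_zero (hC.2.2 x hx)]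
        ring
      refine le_trans ?_ (le_mul_of_one_le_right (by positivity) hone)
      calc ((((univ : Finset (Fin n)).powersetCard (m + 1)).filter fun T =>
            C ⊆ T ∧ ∑ x ∈ T \ C, F (T.erase x) g ≠ 0).card : ℝ)
          ≤ ((univ : Finset (Finset (Fin n))).card : ℝ) := by exact_mod_cast card_le_univ _
        _ = (2 : ℝ) ^ n := by simp
  have hlow : W ≤ ∑ C : Finset (Fin n), ∑ g, ind (MinFat H m δ F C) g * supp m F C g := by
    rw [hWsupp, sum_comm (s := (univ : Finset (Finset (Fin n))))]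
    refine sum_le_sum fun g _ => ?_
    have hnn : ∀ C, 0 ≤ supp m F C g := fun C => by unfold supp; positivity
    simp only [supp, card_filter, Nat.cast_sum, mul_sum]
    rw [sum_comm (s := (univ : Finset (Finset (Fin n))))]
    refine sum_le_sum fun A hA => ?_
    by_cases h : F A g ≠ 0
    · obtain ⟨C, hCA, hC⟩ := hmin A g ((fat_top (mem_powersetCard.1 hA).2 g).2 h)
      refine le_trans (le_of_eq ?_) (single_le_sum (fun C' _ => ?_) (mem_univ C))
      · rw [ind_eq_one hC, if_pos ⟨empty_subset _, h⟩, if_pos ⟨hCA, h⟩]; simp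
      · exact mul_nonneg (ind_nonneg _ g) (Nat.cast_nonneg _)
    · rw [if_neg fun h' => h h'.2, Nat.cast_zero]
      exact sum_nonneg fun C' _ => mul_nonneg (ind_nonneg _ g) (Nat.cast_nonneg _)
  have hup : β * ∑ C : Finset (Fin n), ∑ g, ind (MinFat H m δ F C) g * supp m F C g ≤
      (2 : ℝ) ^ n * ((2 : ℝ) ^ n * ∑ g, bad g) := by
    rw [mul_sum]
    calc ∑ C : Finset (Fin n), β * ∑ g, ind (MinFat H m δ F C) g * supp m F C g
        ≤ ∑ _C : Finset (Fin n), (2 : ℝ) ^ n * ∑ g, bad g := by
          refine sum_le_sum fun C _ => ?_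
          have hinv : Inv (inter H C) (ind (MinFat H m δ F C)) := inv_ind fun a u hu => by
            have he : ∀ x, u ∈ inter H (C.erase x) := fun x => inter_anti H (erase_subset _ _) hu
            exact and_congr_right' (and_congr (fat_inv hF C a u hu)
              (forall₂_congr fun x _ => not_congr (fat_inv hF (C.erase x) a u (he x))))
          have e1 : ∑ g, ind (MinFat H m δ F C) g * supp m F C g
              = ∑ g, proj (inter H C) (supp m F C) g * ind (MinFat H m δ F C) g := by
            rw [sum_proj_mul hinv]; exact sum_congr rfl fun g _ => mul_comm _ _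
          have e2 : ∑ g, proj (inter H C) (dsupp m F C) g * ind (MinFat H m δ F C) g
              = ∑ g, dsupp m F C g * ind (MinFat H m δ F C) g := sum_proj_mul hinv _
          rw [e1, mul_sum, mul_sum]
          calc ∑ g, β * (proj (inter H C) (supp m F C) g * ind (MinFat H m δ F C) g)
              ≤ ∑ g, proj (inter H C) (dsupp m F C) g * ind (MinFat H m δ F C) g := by
                refine sum_le_sum fun g _ => ?_
                by_cases h : MinFat H m δ F C g
                · rw [ind_eq_one h, mul_one, mul_one]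
                  exact hlink C (card_pos.2 h.1) h.2.1.1 g
                · simp [ind_eq_zero h]
            _ = ∑ g, dsupp m F C g * ind (MinFat H m δ F C) g := e2
            _ ≤ ∑ g, (2 : ℝ) ^ n * bad g := by
                refine sum_le_sum fun g _ => ?_
                by_cases h : MinFat H m δ F C g
                · rw [ind_eq_one h, mul_one]; exact hbad C g h
                · rw [ind_eq_zero h, mul_zero]
                  exact mul_nonneg (by positivity) (sum_nonneg (hbad0 g))
      _ = _ := by simp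
  have hpairs : ∑ g, bad g ≤ ((2 : ℝ) ^ n) ^ 2 *
      ((n : ℝ) ^ m * W * (n * δ + β * thr δ m / (4 * K1) / thr δ m)) := by
    rw [sum_comm]
    refine (sum_le_card_nsmul _ _ ((n : ℝ) ^ m * W * (n * δ + β * thr δ m / (4 * K1) / thr δ m))
      fun q hq => ?_).trans ?_
    · show _ ≤ (n : ℝ) ^ m * W * (n * δ + β * thr δ m / (4 * K1) / thr δ m)
      obtain ⟨h1, h2⟩ := mem_product.1 hq
      simp only [mem_filter, mem_univ, true_and] at h1 h2
      rcases le_total q.1.card q.2.card with h | h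
      · exact pair_bound hF hδ hδ1 (by omega) hn (by positivity) hmix q.1 q.2 h2 h
      · have := pair_bound hF hδ hδ1 (by omega) hn (by positivity) hmix q.2 q.1 h1 h
        rw [Finset.inter_comm q.2 q.1] at this
        refine le_trans (le_of_eq (sum_congr rfl fun g _ => ?_)) this
        ring
    · have hWnn : 0 ≤ W := fatW_nonneg m
      rw [nsmul_eq_mul]
      refine mul_le_mul_of_nonneg_right ?_ (by positivity)
      calc (pr.card : ℝ) ≤ ((univ : Finset (Finset (Fin n) × Finset (Fin n))).card : ℝ) := by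
            exact_mod_cast card_le_univ _
        _ = ((2 : ℝ) ^ n) ^ 2 := by simp; ring
  have hWnn : 0 ≤ W := fatW_nonneg m
  have hW0 : W = 0 := by
    by_contra hne
    have hWpos : 0 < W := lt_of_le_of_ne hWnn (Ne.symm hne)
    have hc : β * thr δ m / (4 * K1) / thr δ m = β / (4 * K1) := by field_simp
    rw [hc] at hpairs
    have hnd : (n : ℝ) * δ ≤ β / (4 * K1) := by
      calc (n : ℝ) * δ ≤ n * (β / (4 * K1 * n)) :=
            mul_le_mul_of_nonneg_left (min_le_right _ _) hnR.le
        _ = β / (4 * K1) := by field_simp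
    have h2 : β * W ≤ K1 * W * (β / (4 * K1) + β / (4 * K1)) := by
      calc β * W ≤ β * ∑ C : Finset (Fin n), ∑ g, ind (MinFat H m δ F C) g * supp m F C g :=
            mul_le_mul_of_nonneg_left hlow hβ.le
        _ ≤ (2 : ℝ) ^ n * ((2 : ℝ) ^ n * ∑ g, bad g) := hup
        _ ≤ (2 : ℝ) ^ n * ((2 : ℝ) ^ n * (((2 : ℝ) ^ n) ^ 2 *
              ((n : ℝ) ^ m * W * (n * δ + β / (4 * K1))))) := by gcongr
        _ = K1 * W * (n * δ + β / (4 * K1)) := by rw [hK1]; ring
        _ ≤ _ := by gcongr
    have h3 : K1 * W * (β / (4 * K1) + β / (4 * K1)) = β * W / 2 := by field_simp; ring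
    nlinarith [mul_pos hβ hWpos]
  intro A hA g
  by_contra h
  have h1 : ∑ g, ind (Fat H m δ F A) g ≤ W :=
    single_le_sum (f := fun A => ∑ g, ind (Fat H m δ F A) g)
      (fun A _ => sum_nonneg fun g _ => ind_nonneg _ g) (mem_powersetCard.2 ⟨subset_univ _, hA⟩)
  have h2 : (1 : ℝ) ≤ ∑ x, ind (Fat H m δ F A) x :=
    le_trans (le_of_eq (ind_eq_one ((fat_top (H := H) (δ := δ) hA g).2 h)).symm)
      (single_le_sum (fun x _ => ind_nonneg _ x) (mem_univ g))
  linarith

end Vale.Agent.P067.Alld.G
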