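import Vale.Agent.P067.Alld.G.Cx
import Vale.Agent.P067.Alld.G.Fat

/-!
P067, module G: faces of a coset complex as type sets inside chambers, and the small-mass step.
-/

set_option linter.unusedSectionVars false

namespace Vale.Agent.P067.Alld.G

open Finset

section Img

variable {n : ℕ} {V : Type} [DecidableEq V] {e : Fin n → V}

theorem delta_image (he : Function.Injective e) (f : Finset V → ZMod 2) (A : Finset (Fin n)) :
    delta f (A.image e) = ∑ x ∈ A, f ((A.erase x).image e) := by
  rw [delta, sum_image fun x _ y _ h => he h]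
  exact sum_congr rfl fun x _ => by rw [← image_erase he]

theorem card_above (he : Function.Injective e) {C : Finset (Fin n)} {m : ℕ} (hC : C.card ≤ m)
    (P : Finset V → Prop) [DecidablePred P] :
    ((((univ : Finset (Fin n)).image e) \ C.image e).powersetCard (m - C.card) |>.filter P).card
      = (((univ : Finset (Fin n)).powersetCard m).filter
          fun A => C ⊆ A ∧ P ((A \ C).image e)).card := by
  symm
  refine card_bij (fun A _ => (A \ C).image e) ?_ ?_ ?_
  · intro A hA
    simp only [mem_filter, mem_powersetCard, subset_univ, true_and] at hA ⊢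
    obtain ⟨hA, hCA, hP⟩ := hA
    refine ⟨⟨?_, by rw [card_image_of_injective _ he, card_sdiff_of_subset hCA, hA]⟩, hP⟩
    rw [← image_sdiff _ _ he]
    exact image_subset_image (sdiff_subset_sdiff (subset_univ _) Subset.rfl)
  · intro A hA B hB h
    simp only [mem_filter] at hA hB
    have := image_injective he h
    rw [← sdiff_union_of_subset hA.2.1, this, sdiff_union_of_subset hB.2.1]
  · intro B hB
    simp only [mem_filter, mem_powersetCard] at hB
    obtain ⟨⟨hB1, hB2⟩, hP⟩ := hB
    rw [← image_sdiff _ _ he] at hB1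
    obtain ⟨A', hA', rfl⟩ := subset_image_iff.1 hB1
    rw [card_image_of_injective _ he] at hB2
    have hd : Disjoint C A' := disjoint_sdiff.mono_right hA'
    have e1 : (C ∪ A') \ C = A' := union_sdiff_cancel_left hd
    refine ⟨C ∪ A', ?_, by rw [e1]⟩
    simp only [mem_filter, mem_powersetCard, subset_univ, true_and]
    exact ⟨by rw [card_union_of_disjoint hd, hB2]; omega, subset_union_left, by rwa [e1]⟩

end Img

section Chambers

variable {G : Type} [Group G] [Fintype G] {n : ℕ} (H : Fin n → Subgroup G)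
  [DecidableEq (Vert H)]

/-- The chamber of `g`. -/
def ch (g : G) : Finset (Vert H) := univ.image (pt H g)

theorem pt_inj (g : G) : Function.Injective (pt H g) := fun _ _ h => congrArg Sigma.fst h

theorem pt_eq {g g' : G} {l : Fin n} : pt H g l = pt H g' l ↔ g⁻¹ * g' ∈ H l := by
  rw [← QuotientGroup.eq]
  exact ⟨fun h => eq_of_heq (Sigma.mk.inj h).2, fun h => by simp only [pt, h]⟩

theorem card_ch (g : G) : (ch H g).card = n := by
  rw [ch, card_image_of_injective _ (pt_inj H g), card_univ, Fintype.card_fin]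

theorem mem_tops {t : Finset (Vert H)} : t ∈ tops H ↔ ∃ g, ch H g = t := by
  simp only [tops, Set.Finite.mem_toFinset, Set.mem_range]
  constructor <;> rintro ⟨g, rfl⟩ <;> exact ⟨g, by ext; simp [ch]⟩

theorem face_sub {g x : G} {C : Finset (Fin n)} :
    C.image (pt H g) ⊆ ch H x ↔ g⁻¹ * x ∈ inter H C := by
  simp only [inter, Subgroup.mem_iInf, image_subset_iff, ch, mem_image, mem_univ, true_and]
  refine forall₂_congr fun l _ => ⟨?_, fun h => ⟨l, ((pt_eq H).2 h).symm⟩⟩
  rintro ⟨l', h⟩
  obtain rfl : l' = l := congrArg Sigma.fst h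
  exact (pt_eq H).1 h.symm

theorem ch_eq {g x : G} : ch H g = ch H x ↔ g⁻¹ * x ∈ inter H univ := by
  refine ⟨fun h => (face_sub H).1 (h ▸ Subset.rfl), fun h => ?_⟩
  exact eq_of_subset_of_card_le ((face_sub H).2 h) (by rw [card_ch, card_ch])

/-- Chambers are met equally often. -/
theorem fibre (Φ : Finset (Vert H) → ℕ) :
    ∑ g, Φ (ch H g) = Nat.card (inter H univ) * ∑ t ∈ tops H, Φ t := by
  classical
  rw [mul_sum, ← sum_fiberwise_of_maps_to (g := ch H) (t := tops H)
    fun g _ => (mem_tops H).2 ⟨g, rfl⟩]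
  refine sum_congr rfl fun t ht => ?_
  obtain ⟨g, rfl⟩ := (mem_tops H).1 ht
  rw [sum_congr rfl fun x hx => congrArg Φ (mem_filter.1 hx).2, sum_const, smul_eq_mul,
    Nat.card_eq_fintype_card, ← card_univ (α := inter H univ)]
  congr 1
  refine card_bij' (fun x hx => ⟨g⁻¹ * x, (ch_eq H).1 (mem_filter.1 hx).2.symm⟩)
    (fun u _ => g * u) ?_ ?_ ?_ ?_
  · intro x _; exact mem_univ _
  · intro u _; exact mem_filter.2 ⟨mem_univ _, ((ch_eq H).2 (by simp)).symm⟩
  · intro x _; simp
  · intro u _; simp

theorem link_fibre (g : G) (C : Finset (Fin n)) (Φ : Finset (Vert H) → ℕ)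
    [Fintype (inter H C)] :
    ∑ u : inter H C, Φ (ch H (g * u)) =
      Nat.card (inter H univ) * ∑ t ∈ (tops H).filter (fun t => C.image (pt H g) ⊆ t), Φ t := by
  classical
  rw [sum_filter, ← fibre H fun t => if C.image (pt H g) ⊆ t then Φ t else 0, ← sum_filter]
  refine sum_bij' (fun u _ => g * u)
    (fun x hx => ⟨g⁻¹ * x, (face_sub H).1 (mem_filter.1 hx).2⟩) ?_ ?_ ?_ ?_ ?_
  · intro u _; exact mem_filter.2 ⟨mem_univ _, (face_sub H).2 (by simp)⟩
  · intro x _; exact mem_univ _
  · intro u _; simp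
  · intro x _; simp
  · intro u _; rfl

/-- A cochain read on type sets. -/
def pull (ρ : Finset (Vert H) → ZMod 2) (A : Finset (Fin n)) (g : G) : ZMod 2 :=
  ρ (A.image (pt H g))

theorem image_pt_mul {A : Finset (Fin n)} {g u : G} (hu : u ∈ inter H A) :
    A.image (pt H (g * u)) = A.image (pt H g) := by
  refine image_congr fun l hl => ?_
  simp only [inter, Subgroup.mem_iInf] at hu
  exact ((pt_eq H).2 (by simpa using hu l hl)).symm

theorem supp_eq (ρ : Finset (Vert H) → ZMod 2) {C : Finset (Fin n)} {m : ℕ} (hC : C.card ≤ m)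
    (x : G) : supp m (pull H ρ) C x =
      cnt (m - C.card) (res (C.image (pt H x)) ρ) (ch H x \ C.image (pt H x)) := by
  rw [supp, cnt, ch, card_above (pt_inj H x) hC, Nat.cast_inj]
  refine congrArg card (filter_congr fun A _ => and_congr_right fun hCA => ?_)
  rw [res, ← image_union, union_sdiff_of_subset hCA, pull]

theorem dsupp_eq (ρ : Finset (Vert H) → ZMod 2) {C : Finset (Fin n)} {m : ℕ} (hC : C.card ≤ m)
    (x : G) : dsupp m (pull H ρ) C x =
      cnt (m - C.card + 1) (delta (res (C.image (pt H x)) ρ))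
        (ch H x \ C.image (pt H x)) := by
  rw [dsupp, cnt, ch, show m - C.card + 1 = m + 1 - C.card by omega,
    card_above (pt_inj H x) (hC.trans (Nat.le_succ m)), Nat.cast_inj]
  refine congrArg card (filter_congr fun A _ => and_congr_right fun hCA => ?_)
  rw [delta_image (pt_inj H x), sum_congr rfl fun l hl => show pull H ρ (A.erase l) x
    = res (C.image (pt H x)) ρ (((A \ C).erase l).image (pt H x)) from ?_]
  rw [res, ← image_union, pull]
  congr 2
  ext y
  simp only [mem_sdiff] at hl
  simp only [mem_union, mem_erase, mem_sdiff]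
  by_cases hy : y ∈ C
  · simp [hy, hCA hy, show y ≠ l from fun e => hl.2 (e ▸ hy)]
  · simp [hy]

theorem pull_inv (ρ : Finset (Vert H) → ZMod 2) (A : Finset (Fin n)) (a u : G)
    (hu : u ∈ inter H A) : pull H ρ A (a * u) = pull H ρ A a := by
  rw [pull, image_pt_mul H hu, pull]

variable {H}

theorem mem_face_iff {k : ℕ} {σ : Finset (Vert H)} :
    σ ∈ face (tops H) k ↔ ∃ (g : G) (A : Finset (Fin n)), A.card = k ∧ A.image (pt H g) = σ := by
  rw [mem_face]
  constructor
  · rintro ⟨t, ht, hσ, hc⟩
    obtain ⟨g, rfl⟩ := (mem_tops H).1 ht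
    obtain ⟨A, -, rfl⟩ := subset_image_iff.1 hσ
    exact ⟨g, A, by rwa [card_image_of_injective _ (pt_inj H g)] at hc, rfl⟩
  · rintro ⟨g, A, hc, rfl⟩
    exact ⟨ch H g, (mem_tops H).2 ⟨g, rfl⟩, image_subset_image (subset_univ A),
      by rwa [card_image_of_injective _ (pt_inj H g)]⟩

/-- The conclusion of the small-mass step. -/
theorem small_rho {m : ℕ} {β μ κ : ℝ} (hβ : 0 < β)
    (hsz : ∀ (G : Type) [Group G] [Fintype G] (H : Fin n → Subgroup G)
      (F : Finset (Fin n) → G → ZMod 2),
      Mix (H := H) κ → (∀ A a, ∀ u ∈ inter H A, F A (a * u) = F A a) →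
      (∀ T : Finset (Fin n), T.card = m + 1 → ∀ g, ∑ x ∈ T, F (T.erase x) g = 0) →
      (∀ C : Finset (Fin n), 1 ≤ C.card → C.card ≤ m → ∀ g,
        β * proj (inter H C) (supp m F C) g ≤ proj (inter H C) (dsupp m F C) g) →
      ∑ g, supp m F ∅ g < μ * Fintype.card G →
      ∀ A : Finset (Fin n), A.card = m → ∀ g, F A g = 0)
    (hmix : Mix (H := H) κ) {ρ : Finset (Vert H) → ZMod 2} (hρ : ∀ τ, delta ρ τ = 0)
    (hloc : LocMin (tops H) m ρ)
    (hexp : ∀ s : Finset (Vert H), s ∈ face (tops H) s.card → 1 ≤ s.card → s.card ≤ m →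
      Expands (link (tops H) s) (m - s.card) β)
    (hsmall : (mass (tops H) m ρ : ℝ) < μ * (tops H).card) :
    ∀ σ ∈ face (tops H) m, ρ σ = 0 := by
  classical
  intro σ hσ
  obtain ⟨g, A, hA, rfl⟩ := mem_face_iff.1 hσ
  refine hsz G H (pull H ρ) hmix (pull_inv H ρ) (fun T _ g => ?_) ?_ ?_ A hA g
  · have := hρ (T.image (pt H g))
    rwa [delta_image (pt_inj H g)] at this
  · intro C hC1 hCm x
    set s := C.image (pt H x) with hs
    have hsc : s.card = C.card := card_image_of_injective _ (pt_inj H x)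
    have hsf : s ∈ face (tops H) s.card := mem_face_iff.2 ⟨x, C, hsc.symm, rfl⟩
    obtain ⟨a, ha⟩ := hexp s hsf (by omega) (by omega) (res s ρ)
    have h1 := hloc s hsf (by omega) (by omega) a
    have h2 : β * mass (link (tops H) s) (m - C.card) (res s ρ)
        ≤ mass (link (tops H) s) (m - C.card + 1) (delta (res s ρ)) := by
      rw [hsc] at ha h1
      exact (mul_le_mul_of_nonneg_left (Nat.cast_le.2 h1) hβ.le).trans ha
    simp only [mass_link] at h2
    have e1 : ∀ u : inter H C, supp m (pull H ρ) C (x * u)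
        = cnt (m - C.card) (res s ρ) (ch H (x * u) \ s) := fun u => by
      rw [supp_eq H ρ hCm, image_pt_mul H u.2]
    have e2 : ∀ u : inter H C, dsupp m (pull H ρ) C (x * u)
        = cnt (m - C.card + 1) (delta (res s ρ)) (ch H (x * u) \ s) := fun u => by
      rw [dsupp_eq H ρ hCm, image_pt_mul H u.2]
    rw [proj_apply, proj_apply, ← mul_div_assoc]
    refine div_le_div_of_nonneg_right ?_ (Nat.cast_nonneg _)
    simp only [e1, e2, ← Nat.cast_sum]
    rw [link_fibre H x C fun t => cnt (m - C.card) (res s ρ) (t \ s),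
      link_fibre H x C fun t => cnt (m - C.card + 1) (delta (res s ρ)) (t \ s)]
    simp only [Nat.cast_mul]
    rw [← mul_assoc, mul_comm β, mul_assoc]
    exact mul_le_mul_of_nonneg_left h2 (Nat.cast_nonneg _)
  · have e : ∀ x, supp m (pull H ρ) ∅ x = cnt m ρ (ch H x) := fun x => by
      rw [supp_eq H ρ (by simp)]
      simp only [card_empty, Nat.sub_zero, image_empty, sdiff_empty]
      congr 2
      funext B; simp [res]
    have hG : (Fintype.card G : ℝ) = Nat.card (inter H univ) * (tops H).card := by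
      have := fibre H fun _ => 1
      simp only [sum_const, smul_eq_mul, mul_one, card_univ] at this
      exact_mod_cast this
    simp only [e, ← Nat.cast_sum, fibre H (cnt m ρ), Nat.cast_mul, ← mass_eq, hG]
    rw [mul_left_comm]
    exact mul_lt_mul_of_pos_left hsmall (Nat.cast_pos.2 Nat.card_pos)

end Chambers

end Vale.Agent.P067.Alld.G
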