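import Vale.Agent.P067.Alld.Defs

/-!
P067, module G: masses, links and local corrections in a complex given by its top faces.
-/

set_option linter.unusedSectionVars false

namespace Vale.Agent.P067.Alld.G

open Finset

variable {V : Type} [DecidableEq V] {T : Finset (Finset V)}

theorem mem_face {k : ℕ} {σ : Finset V} :
    σ ∈ face T k ↔ ∃ t ∈ T, σ ⊆ t ∧ σ.card = k := by
  simp [face, mem_powersetCard]

/-- The members of the support inside one top face. -/
def cnt (k : ℕ) (f : Finset V → ZMod 2) (t : Finset V) : ℕ :=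
  ((t.powersetCard k).filter fun σ => f σ ≠ 0).card

theorem mass_eq (k : ℕ) (f : Finset V → ZMod 2) : mass T k f = ∑ t ∈ T, cnt k f t := by
  simp only [mass, cnt, wt, card_filter]
  rw [sum_comm]
  refine sum_congr rfl fun t ht => ?_
  rw [sum_filter, ← sum_subset (show t.powersetCard k ⊆ face T k from fun σ hσ =>
    mem_face.2 ⟨t, ht, mem_powersetCard.1 hσ⟩)]
  · refine sum_congr rfl fun σ hσ => ?_
    rw [if_pos (mem_powersetCard.1 hσ).1]
  · intro σ hσ hn
    rw [if_neg (fun h => hn (mem_powersetCard.2 ⟨h, (mem_face.1 hσ).choose_spec.2.2⟩)), ite_self]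

theorem mass_link (s : Finset V) (k : ℕ) (f : Finset V → ZMod 2) :
    mass (link T s) k f = ∑ t ∈ T.filter (fun t => s ⊆ t), cnt k f (t \ s) := by
  rw [mass_eq, link, sum_image]
  intro a ha b hb h
  simp only [coe_filter, Set.mem_ofPred_eq] at ha hb
  rw [← sdiff_union_of_subset ha.2, ← sdiff_union_of_subset hb.2]
  exact congrArg (· ∪ s) h

theorem cnt_le (k : ℕ) (f : Finset V → ZMod 2) (t : Finset V) : cnt k f t ≤ 2 ^ t.card := by
  rw [← card_powerset]
  exact card_le_card ((filter_subset _ _).trans fun σ h => mem_powerset.2 (mem_powersetCard.1 h).1)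

theorem cnt_add_le (k : ℕ) (f g : Finset V → ZMod 2) (t : Finset V) :
    cnt k (f + g) t ≤ cnt k f t + cnt k g t := by
  refine le_trans (card_le_card ?_) (card_union_le _ _)
  intro σ hσ
  simp only [mem_filter, mem_union, Pi.add_apply] at hσ ⊢
  by_cases h : f σ = 0
  · exact Or.inr ⟨hσ.1, by simpa [h] using hσ.2⟩
  · exact Or.inl ⟨hσ.1, h⟩

theorem mass_congr {k : ℕ} {f g : Finset V → ZMod 2} (h : ∀ σ ∈ face T k, f σ = g σ) :
    mass T k f = mass T k g := by
  unfold mass
  rw [filter_congr fun σ hσ => show f σ ≠ 0 ↔ g σ ≠ 0 by rw [h σ hσ]]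

theorem delta_add (f g : Finset V → ZMod 2) : delta (f + g) = delta f + delta g := by
  funext τ; simp [delta, sum_add_distrib]

theorem delta_delta (f : Finset V → ZMod 2) (τ : Finset V) : delta (delta f) τ = 0 := by
  unfold delta
  rw [sum_sigma' τ (fun x => τ.erase x)]
  refine sum_involution (fun p _ => ⟨p.2, p.1⟩) ?_ ?_ ?_ ?_
  · rintro ⟨x, y⟩ _
    rw [erase_right_comm]
    exact CharTwo.add_self_eq_zero _
  · rintro ⟨x, y⟩ hp _ h
    simp only [mem_sigma, mem_erase] at hp
    exact hp.2.1 (congrArg Sigma.fst h)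
  · rintro ⟨x, y⟩ hp
    simp only [mem_sigma, mem_erase] at hp ⊢
    exact ⟨hp.2.2, Ne.symm hp.2.1, hp.1⟩
  · rintro ⟨x, y⟩ _; rfl

/-- The restriction to the link of `s`. -/
def res (s : Finset V) (f : Finset V → ZMod 2) (B : Finset V) : ZMod 2 := f (s ∪ B)

theorem cnt_split {s t : Finset V} (hst : s ⊆ t) {m : ℕ} (hsm : s.card ≤ m)
    (f : Finset V → ZMod 2) :
    cnt m f t = cnt (m - s.card) (res s f) (t \ s) +
      (((t.powersetCard m).filter fun σ => ¬ s ⊆ σ).filter fun σ => f σ ≠ 0).card := by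
  rw [cnt, ← card_filter_add_card_filter_not (fun σ => s ⊆ σ), filter_comm (fun σ => ¬ s ⊆ σ)]
  congr 1
  refine card_bij' (fun σ _ => σ \ s) (fun B _ => s ∪ B) ?_ ?_ ?_ ?_
  · intro σ hσ
    simp only [mem_filter, mem_powersetCard] at hσ ⊢
    refine ⟨⟨sdiff_subset_sdiff hσ.1.1.1 Subset.rfl, ?_⟩, ?_⟩
    · rw [card_sdiff_of_subset hσ.2, hσ.1.1.2]
    · rw [res, union_sdiff_of_subset hσ.2]; exact hσ.1.2
  · intro B hB
    simp only [mem_filter, mem_powersetCard] at hB ⊢
    obtain ⟨⟨hB1, hB2⟩, hB3⟩ := hB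
    have hd : Disjoint s B := disjoint_sdiff.mono_right hB1
    refine ⟨⟨⟨union_subset hst (hB1.trans sdiff_subset), ?_⟩, hB3⟩, subset_union_left⟩
    rw [card_union_of_disjoint hd, hB2]; omega
  · intro σ hσ
    simp only [mem_filter] at hσ
    exact union_sdiff_of_subset hσ.2
  · intro B hB
    simp only [mem_filter, mem_powersetCard] at hB
    exact union_sdiff_cancel_left (disjoint_sdiff.mono_right hB.1.1)

/-- The cochain `a` of the link of `s`, placed around `s`. -/
def push (T : Finset (Finset V)) (k : ℕ) (s : Finset V) (a : Finset V → ZMod 2) (σ : Finset V) :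
    ZMod 2 :=
  if s ⊆ σ ∧ σ ∈ face T k then a (σ \ s) else 0

theorem delta_push {k : ℕ} {s : Finset V} (a : Finset V → ZMod 2) {τ : Finset V}
    (hτ : τ ∈ face T (k + 1)) :
    delta (push T k s a) τ = if s ⊆ τ then delta a (τ \ s) else 0 := by
  obtain ⟨t, ht, hτt, hτc⟩ := mem_face.1 hτ
  have hmem : ∀ x ∈ τ, τ.erase x ∈ face T k := fun x hx => mem_face.2
    ⟨t, ht, (erase_subset _ _).trans hτt, by rw [card_erase_of_mem hx, hτc]; omega⟩
  unfold delta
  by_cases hs : s ⊆ τ
  · rw [if_pos hs, ← sum_subset (sdiff_subset : τ \ s ⊆ τ)]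
    · refine sum_congr rfl fun x hx => ?_
      obtain ⟨hxτ, hxs⟩ := mem_sdiff.1 hx
      rw [push, if_pos ⟨fun y hy => mem_erase.2 ⟨fun e => hxs (e ▸ hy), hs hy⟩, hmem x hxτ⟩,
        erase_sdiff_comm]
    · intro x hx hx'
      refine if_neg fun h => ?_
      have hxs : x ∈ s := by simpa [hx] using hx'
      exact (mem_erase.1 (h.1 hxs)).1 rfl
  · rw [if_neg hs]
    exact sum_eq_zero fun x _ => if_neg fun h => hs (h.1.trans (erase_subset _ _))

theorem mass_push {k : ℕ} {s : Finset V} (hsk : s.card ≤ k + 1) (ρ a : Finset V → ZMod 2) :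
    mass T (k + 1) (ρ + delta (push T k s a)) + mass (link T s) (k + 1 - s.card) (res s ρ)
      = mass T (k + 1) ρ + mass (link T s) (k + 1 - s.card) (res s ρ + delta a) := by
  rw [mass_link, mass_link, mass_eq, mass_eq, sum_filter, sum_filter, ← sum_add_distrib,
    ← sum_add_distrib]
  refine sum_congr rfl fun t ht => ?_
  have hface : ∀ σ ∈ t.powersetCard (k + 1), σ ∈ face T (k + 1) := fun σ hσ =>
    mem_face.2 ⟨t, ht, mem_powersetCard.1 hσ⟩
  by_cases hst : s ⊆ t
  · rw [if_pos hst, if_pos hst, cnt_split hst hsk, cnt_split hst hsk ρ]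
    have e1 : cnt (k + 1 - s.card) (res s (ρ + delta (push T k s a))) (t \ s)
        = cnt (k + 1 - s.card) (res s ρ + delta a) (t \ s) := by
      unfold cnt
      refine congrArg card (filter_congr fun B hB => ?_)
      obtain ⟨hB1, hB2⟩ := mem_powersetCard.1 hB
      have hd : Disjoint s B := disjoint_sdiff.mono_right hB1
      have hf : s ∪ B ∈ face T (k + 1) := mem_face.2 ⟨t, ht,
        union_subset hst (hB1.trans sdiff_subset), by rw [card_union_of_disjoint hd, hB2]; omega⟩
      simp [res, delta_push a hf, union_sdiff_cancel_left hd]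
    have e2 : (((t.powersetCard (k + 1)).filter fun σ => ¬ s ⊆ σ).filter fun σ =>
        (ρ + delta (push T k s a)) σ ≠ 0)
        = ((t.powersetCard (k + 1)).filter fun σ => ¬ s ⊆ σ).filter fun σ => ρ σ ≠ 0 := by
      refine filter_congr fun σ hσ => ?_
      obtain ⟨h1, h2⟩ := mem_filter.1 hσ
      simp [delta_push a (hface σ h1), h2]
    rw [e1, e2]; omega
  · rw [if_neg hst, if_neg hst]
    unfold cnt
    refine congrArg (· + 0) (congrArg card (filter_congr fun σ hσ => ?_))
    simp [delta_push a (hface σ hσ),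
      show ¬ s ⊆ σ from fun h => hst (h.trans (mem_powersetCard.1 hσ).1)]

theorem mass_push_le {k n D : ℕ} {s : Finset V} (hT : ∀ t ∈ T, t.card = n) {v : V} (hv : v ∈ s)
    (hD : (T.filter fun t => v ∈ t).card ≤ D) (a : Finset V → ZMod 2) :
    mass T k (push T k s a) ≤ D * 2 ^ n := by
  rw [mass_eq, ← sum_filter_of_ne (p := fun t => v ∈ t)]
  · refine (sum_le_card_nsmul _ _ (2 ^ n) fun t ht => ?_).trans ?_
    · exact hT t (mem_filter.1 ht).1 ▸ cnt_le _ _ t
    · exact Nat.mul_le_mul_right _ hD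
  · intro t _ hne
    obtain ⟨σ, hσ⟩ := card_pos.1 (Nat.pos_of_ne_zero hne)
    obtain ⟨h1, h2⟩ := mem_filter.1 hσ
    have h3 : s ⊆ σ := by
      by_contra hs
      exact h2 (if_neg fun h => hs h.1)
    exact (mem_powersetCard.1 h1).1 (h3 hv)

/-- No correction around a single face lowers the mass. -/
def LocMin (T : Finset (Finset V)) (m : ℕ) (ρ : Finset V → ZMod 2) : Prop :=
  ∀ s : Finset V, s ∈ face T s.card → 1 ≤ s.card → s.card ≤ m → ∀ a : Finset V → ZMod 2,
    mass (link T s) (m - s.card) (res s ρ) ≤ mass (link T s) (m - s.card) (res s ρ + delta a)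

/-- Greedy local corrections. -/
theorem greedy {n D : ℕ} (hT : ∀ t ∈ T, t.card = n)
    (hD : ∀ v, (T.filter fun t => v ∈ t).card ≤ D) (k : ℕ) (f : Finset V → ZMod 2) :
    ∃ g : Finset V → ZMod 2, LocMin T (k + 1) (delta (f + g)) ∧
      mass T (k + 1) (delta (f + g)) ≤ mass T (k + 1) (delta f) ∧
      mass T k g ≤ D * 2 ^ n * mass T (k + 1) (delta f) := by
  suffices H : ∀ N, ∀ g : Finset V → ZMod 2, mass T (k + 1) (delta (f + g)) = N →
      ∃ g', LocMin T (k + 1) (delta (f + g')) ∧
        mass T (k + 1) (delta (f + g')) ≤ N ∧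
        mass T k g' + D * 2 ^ n * mass T (k + 1) (delta (f + g'))
          ≤ mass T k g + D * 2 ^ n * N by
    obtain ⟨g, h1, h2, h3⟩ := H _ 0 rfl
    rw [add_zero] at h2 h3
    have h0 : mass T k (0 : Finset V → ZMod 2) = 0 := by simp [mass]
    exact ⟨g, h1, h2, by omega⟩
  intro N
  induction N using Nat.strong_induction_on with
  | _ N ih =>
  intro g hg
  by_cases h : LocMin T (k + 1) (delta (f + g))
  · exact ⟨g, h, hg.le, by rw [hg]⟩
  · simp only [LocMin, not_forall, not_le] at h
    obtain ⟨s, -, hs1, hsk, a, ha⟩ := h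
    obtain ⟨v, hv⟩ := card_pos.1 (show 0 < s.card by omega)
    have he : delta (f + (g + push T k s a)) = delta (f + g) + delta (push T k s a) := by
      rw [← add_assoc, delta_add]
    have hp := mass_push (T := T) hsk (delta (f + g)) a
    rw [← he, hg] at hp
    have hlt : mass T (k + 1) (delta (f + (g + push T k s a))) < N := by omega
    obtain ⟨g', h1, h2, h3⟩ := ih _ hlt (g + push T k s a) rfl
    refine ⟨g', h1, h2.trans hlt.le, h3.trans ?_⟩
    have hb := mass_push_le (k := k) hT hv (hD v) a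
    have hs : mass T k (g + push T k s a) ≤ mass T k g + mass T k (push T k s a) := by
      rw [mass_eq, mass_eq, mass_eq, ← sum_add_distrib]
      exact sum_le_sum fun t _ => cnt_add_le _ _ _ t
    have hmul := Nat.mul_le_mul_left (D * 2 ^ n) (Nat.succ_le_of_lt hlt)
    rw [Nat.mul_succ] at hmul
    omega

end Vale.Agent.P067.Alld.G
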