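import Vale.Agent.P067.Alld.G.Bridge
import Vale.Agent.P067.Alld.Stmt

/-!
P067, module G: coboundary expansion of the skeleton of a coset complex.
-/

set_option linter.unusedSectionVars false

namespace Vale.Agent.P067.Alld.G

open Finset

section Norms

variable {V : Type} [Fintype V] [DecidableEq V] {T : Finset (Finset V)}

/-- Extension by zero. -/
def ext0 {F : Finset (Finset V)} {k : ℕ} (f : Cochain F k) (σ : Finset V) : ZMod 2 :=
  if h : σ ∈ faces F k then f ⟨σ, h⟩ else 0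

theorem cbd_apply {F : Finset (Finset V)} {k : ℕ} (h : Finset V → ZMod 2)
    (τ : {τ // τ ∈ faces F (k + 1)}) :
    cbd F k (fun σ => h σ.1) τ = delta h τ.1 := by
  obtain ⟨τ, hτ⟩ := τ
  simp only [faces, mem_filter, mem_univ, true_and] at hτ
  obtain ⟨hc, t, ht, hτt⟩ := hτ
  have hmem : ∀ x ∈ τ, τ.erase x ∈ faces F k := fun x hx => mem_filter.2 ⟨mem_univ _,
    by rw [card_erase_of_mem hx, hc]; omega, t, ht, (erase_subset _ _).trans hτt⟩
  show ∑ σ ∈ univ.filter (fun σ : {σ // σ ∈ faces F k} => σ.1 ⊆ τ), h σ.1 = _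
  symm
  refine sum_bij (fun x hx => ⟨τ.erase x, hmem x hx⟩) ?_ ?_ ?_ ?_
  · intro x _; exact mem_filter.2 ⟨mem_univ _, erase_subset _ _⟩
  · intro x hx y hy e
    exact erase_injOn τ hx hy (congrArg Subtype.val e)
  · rintro ⟨σ, hσ⟩ hsub
    have hsub := (mem_filter.1 hsub).2
    simp only [faces, mem_filter, mem_univ, true_and] at hσ
    obtain ⟨x, hx⟩ := card_eq_one.1 (show (τ \ σ).card = 1 by
      rw [card_sdiff_of_subset hsub, hc, hσ.1]; omega)
    have hxτ : x ∈ τ := (mem_sdiff.1 (hx ▸ mem_singleton_self x)).1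
    refine ⟨x, hxτ, Subtype.ext ?_⟩
    show τ.erase x = σ
    rw [erase_eq, ← hx, Finset.sdiff_sdiff_eq_self hsub]
  · intro x _; rfl

theorem cnorm_eq (d k : ℕ) (F : Finset (Finset V)) (f : Cochain F k) (h : Finset V → ZMod 2)
    (hf : ∀ σ, f σ = h σ.1) :
    cnorm d F k f = (∑ σ ∈ (faces F k).filter (fun σ => h σ ≠ 0),
      ((F.filter fun t => σ ⊆ t).card : ℝ)) / ((Nat.choose (d + 1) k : ℝ) * F.card) := by
  rw [cnorm, sum_div]
  refine sum_bij (fun σ _ => σ.1) ?_ ?_ ?_ ?_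
  · intro σ hσ; exact mem_filter.2 ⟨σ.2, by rw [← hf]; exact (mem_filter.1 hσ).2⟩
  · intro a _ b _ e; exact Subtype.ext e
  · intro σ hσ
    exact ⟨⟨σ, (mem_filter.1 hσ).1⟩,
      mem_filter.2 ⟨mem_univ _, by rw [hf]; exact (mem_filter.1 hσ).2⟩, rfl⟩
  · intro σ _; rfl

theorem faces_face {n d k : ℕ} (hT : ∀ t ∈ T, t.card = n) (hk : k ≤ d + 1) (hn : d + 1 ≤ n) :
    faces (face T (d + 1)) k = face T k := by
  ext σ
  simp only [faces, mem_filter, mem_univ, true_and, mem_face]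
  constructor
  · rintro ⟨hc, u, ⟨t, ht, hut, -⟩, hσu⟩
    exact ⟨t, ht, hσu.trans hut, hc⟩
  · rintro ⟨t, ht, hσt, hc⟩
    obtain ⟨u, h1, h2, h3⟩ := exists_subsuperset_card_eq hσt (show σ.card ≤ d + 1 by omega)
      (show d + 1 ≤ t.card by rw [hT t ht]; omega)
    exact ⟨hc, u, ⟨t, ht, h2, h3⟩, h1⟩

theorem cnorm_le {n d k D : ℕ} (hT : ∀ t ∈ T, t.card = n) (hk : k ≤ d + 1) (hn : d + 1 ≤ n)
    (hk1 : 1 ≤ k) (hD : DegreeLE D T) (f : Cochain (face T (d + 1)) k) (h : Finset V → ZMod 2)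
    (hf : ∀ σ, f σ = h σ.1) :
    cnorm d (face T (d + 1)) k f
      ≤ (D * 2 ^ n : ℕ) * (mass T k h : ℝ) / (face T (d + 1)).card := by
  rw [cnorm_eq d k _ f h hf, faces_face hT hk hn]
  have hc : (1 : ℝ) ≤ Nat.choose (d + 1) k := by exact_mod_cast Nat.choose_pos hk
  have hsum : ∑ σ ∈ (face T k).filter (fun σ => h σ ≠ 0),
      (((face T (d + 1)).filter fun t => σ ⊆ t).card : ℝ)
        ≤ (D * 2 ^ n : ℕ) * (mass T k h : ℝ) := by
    rw [mass, Nat.cast_sum, mul_sum]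
    refine sum_le_sum fun σ hσ => ?_
    obtain ⟨t, ht, hσt, hσc⟩ := mem_face.1 (mem_filter.1 hσ).1
    obtain ⟨v, hv⟩ := card_pos.1 (show 0 < σ.card by omega)
    have h1 : ((face T (d + 1)).filter fun u => σ ⊆ u).card ≤ D * 2 ^ n := by
      refine (card_le_card (t := (T.filter fun t => v ∈ t).biUnion powerset) fun u hu => ?_).trans ?_
      · obtain ⟨hu1, hu2⟩ := mem_filter.1 hu
        obtain ⟨t, ht, hut, -⟩ := mem_face.1 hu1
        exact mem_biUnion.2 ⟨t, mem_filter.2 ⟨ht, hut (hu2 hv)⟩, mem_powerset.2 hut⟩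
      · refine (card_biUnion_le_card_mul _ _ (2 ^ n) fun t ht => ?_).trans
          (Nat.mul_le_mul_right _ (hD v))
        rw [card_powerset, hT t (mem_filter.1 ht).1]
    have h2 : 1 ≤ wt T σ := card_pos.2 ⟨t, mem_filter.2 ⟨ht, hσt⟩⟩
    calc (((face T (d + 1)).filter fun u => σ ⊆ u).card : ℝ) ≤ ((D * 2 ^ n : ℕ) : ℝ) * 1 := by
          rw [mul_one]; exact_mod_cast h1
      _ ≤ _ := mul_le_mul_of_nonneg_left (by exact_mod_cast h2) (Nat.cast_nonneg _)
  rcases Nat.eq_zero_or_pos (face T (d + 1)).card with h0 | h0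
  · simp [h0]
  refine (div_le_div_of_nonneg_right hsum (by positivity)).trans ?_
  exact div_le_div_of_nonneg_left (by positivity) (by exact_mod_cast h0)
    (le_mul_of_one_le_left (Nat.cast_nonneg _) hc)

theorem mass_le {n d k D : ℕ} (hT : ∀ t ∈ T, t.card = n) (hk : k ≤ d + 1) (hn : d + 1 ≤ n)
    (hk1 : 1 ≤ k) (hD : DegreeLE D T) (f : Cochain (face T (d + 1)) k) (h : Finset V → ZMod 2)
    (hf : ∀ σ, f σ = h σ.1) :
    (mass T k h : ℝ) / (face T (d + 1)).card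
      ≤ D * 2 ^ (d + 1) * cnorm d (face T (d + 1)) k f := by
  rw [cnorm_eq d k _ f h hf, faces_face hT hk hn]
  have hc : 0 < Nat.choose (d + 1) k := Nat.choose_pos hk
  have hc2 : (Nat.choose (d + 1) k : ℝ) ≤ 2 ^ (d + 1) := by
    exact_mod_cast Nat.choose_le_two_pow (d + 1) k
  set S := (face T k).filter (fun σ => h σ ≠ 0)
  set w : ℝ := ∑ σ ∈ S, (((face T (d + 1)).filter fun t => σ ⊆ t).card : ℝ)
  have hw : (mass T k h : ℝ) ≤ D * w := by
    rw [mass, Nat.cast_sum, mul_sum]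
    refine sum_le_sum fun σ hσ => ?_
    obtain ⟨t, ht, hσt, hσc⟩ := mem_face.1 (mem_filter.1 hσ).1
    obtain ⟨v, hv⟩ := card_pos.1 (show 0 < σ.card by omega)
    have h1 : wt T σ ≤ D := (card_le_card
      (monotone_filter_right T fun t _ ht => ht hv)).trans (hD v)
    obtain ⟨u, hu1, hu2, hu3⟩ := exists_subsuperset_card_eq hσt (show σ.card ≤ d + 1 by omega)
      (show d + 1 ≤ t.card by rw [hT t ht]; omega)
    have h2 : 1 ≤ ((face T (d + 1)).filter fun t => σ ⊆ t).card :=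
      card_pos.2 ⟨u, mem_filter.2 ⟨mem_face.2 ⟨t, ht, hu2, hu3⟩, hu1⟩⟩
    exact le_trans (Nat.cast_le.2 h1)
      (le_mul_of_one_le_right (Nat.cast_nonneg _) (by exact_mod_cast h2))
  have hw0 : 0 ≤ w := sum_nonneg fun σ _ => Nat.cast_nonneg _
  calc (mass T k h : ℝ) / (face T (d + 1)).card ≤ D * w / (face T (d + 1)).card :=
        div_le_div_of_nonneg_right hw (Nat.cast_nonneg _)
    _ = D * Nat.choose (d + 1) k * (w / (Nat.choose (d + 1) k * (face T (d + 1)).card)) := by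
        have : (Nat.choose (d + 1) k : ℝ) ≠ 0 := Nat.cast_ne_zero.2 hc.ne'
        field_simp
    _ ≤ _ := by gcongr

end Norms

theorem mix_of_rankTwo {G : Type} [Group G] [Fintype G] {n : ℕ} (H : Fin n → Subgroup G)
    (hgen : Generated H) {lam κ : ℝ} (h0 : 0 ≤ lam) (hsmall : 2 ^ n * lam ≤ 1 / 2)
    (h2 : RankTwoLam H lam) (hκ : (n : ℝ) * n * (2 ^ n * lam) ≤ κ) : Mix (H := H) κ := by
  intro A B f g hf hg hf0 hg0
  have hK : (0 : ℝ) ≤ 2 ^ n * lam := by positivity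
  have h := mix H hK (pairs_all H hgen h0 hsmall h2) (A ∩ B) (A \ B) (B \ A)
    (disjoint_sdiff_inter A B).symm
    ((disjoint_sdiff_inter B A).symm.mono_left (inter_comm A B).le)
    disjoint_sdiff_sdiff f g
    (by rwa [show A ∩ B ∪ A \ B = A by ext x; by_cases hx : x ∈ B <;> simp [hx]])
    (by rwa [show A ∩ B ∪ B \ A = B by ext x; by_cases hx : x ∈ A <;> simp [hx]])
    hf0 hg0
  refine h.trans ?_
  have hle : ∀ X : Finset (Fin n), (X.card : ℝ) ≤ n := fun X => by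
    exact_mod_cast (card_le_univ X).trans_eq (Fintype.card_fin n)
  have hAB : ((A \ B).card : ℝ) * (B \ A).card * (2 ^ n * lam) ≤ κ :=
    le_trans (mul_le_mul_of_nonneg_right
      (mul_le_mul (hle _) (hle _) (Nat.cast_nonneg _) (Nat.cast_nonneg _)) hK) hκ
  exact div_le_div_of_nonneg_right (mul_le_mul_of_nonneg_right hAB (by positivity)) zero_le_two

theorem core {G : Type} [Group G] [Fintype G] {n : ℕ} {H : Fin n → Subgroup G}
    [DecidableEq (Vert H)] {D k : ℕ} {β μ κ : ℝ} (hβ : 0 < β) (hμ : 0 < μ)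
    (hD : ∀ v, ((tops H).filter fun t => v ∈ t).card ≤ D)
    (hexp : ∀ s : Finset (Vert H), s ∈ face (tops H) s.card → 1 ≤ s.card → s.card ≤ k + 1 →
      Expands (link (tops H) s) (k + 1 - s.card) β)
    (hex : Exact (tops H) k)
    (hsz : ∀ (G : Type) [Group G] [Fintype G] (H : Fin n → Subgroup G)
      (F : Finset (Fin n) → G → ZMod 2),
      Mix (H := H) κ → (∀ A a, ∀ u ∈ inter H A, F A (a * u) = F A a) →
      (∀ T : Finset (Fin n), T.card = k + 1 + 1 → ∀ g, ∑ x ∈ T, F (T.erase x) g = 0) →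
      (∀ C : Finset (Fin n), 1 ≤ C.card → C.card ≤ k + 1 → ∀ g,
        β * proj (inter H C) (supp (k + 1) F C) g ≤ proj (inter H C) (dsupp (k + 1) F C) g) →
      ∑ g, supp (k + 1) F ∅ g < μ * Fintype.card G →
      ∀ A : Finset (Fin n), A.card = k + 1 → ∀ g, F A g = 0)
    (hmix : Mix (H := H) κ) (f : Finset (Vert H) → ZMod 2) :
    ∃ a : Finset (Vert H) → ZMod 2, (mass (tops H) k (f + delta a) : ℝ)
      ≤ ((D * 2 ^ n : ℕ) + 2 ^ n / μ) * mass (tops H) (k + 1) (delta f) := by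
  have hT : ∀ t ∈ tops H, t.card = n := fun t ht => by
    obtain ⟨g, rfl⟩ := (mem_tops H).1 ht
    exact card_ch H g
  rcases lt_or_ge (mass (tops H) (k + 1) (delta f) : ℝ) (μ * (tops H).card) with hs | hl
  · obtain ⟨g, hg1, hg2, hg3⟩ := greedy hT hD k f
    have hz := small_rho hβ hsz hmix (delta_delta (f + g)) hg1 hexp
      (lt_of_le_of_lt (Nat.cast_le.2 hg2) hs)
    obtain ⟨a, ha⟩ := hex (f + g) hz
    refine ⟨a, ?_⟩
    rw [mass_congr fun σ hσ => show (f + delta a) σ = g σ by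
      rw [Pi.add_apply, ← ha σ hσ, Pi.add_apply, ← add_assoc, CharTwo.add_self_eq_zero, zero_add]]
    calc (mass (tops H) k g : ℝ) ≤ (D * 2 ^ n : ℕ) * mass (tops H) (k + 1) (delta f) := by
          exact_mod_cast hg3
      _ ≤ _ := mul_le_mul_of_nonneg_right (le_add_of_nonneg_right (by positivity))
          (Nat.cast_nonneg _)
  · refine ⟨0, ?_⟩
    have h0 : delta (0 : Finset (Vert H) → ZMod 2) = 0 := by funext τ; simp [delta]
    rw [h0, add_zero]
    have h1 : (mass (tops H) k f : ℝ) ≤ 2 ^ n * (tops H).card := by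
      rw [mass_eq, Nat.cast_sum, mul_comm, ← nsmul_eq_mul]
      refine sum_le_card_nsmul _ _ _ fun t ht => ?_
      exact_mod_cast hT t ht ▸ cnt_le k f t
    calc (mass (tops H) k f : ℝ) ≤ 2 ^ n / μ * (μ * (tops H).card) :=
          h1.trans_eq (by field_simp)
      _ ≤ 2 ^ n / μ * mass (tops H) (k + 1) (delta f) :=
          mul_le_mul_of_nonneg_left hl (by positivity)
      _ ≤ _ := mul_le_mul_of_nonneg_right (le_add_of_nonneg_left (Nat.cast_nonneg _))
          (Nat.cast_nonneg _)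

/-- Module G. -/
theorem cosetGlobal : CosetGlobalStmt := by
  intro d n β hd hdn hβ
  choose μ κ hμ hκ hsz using fun i : Fin d =>
    small_zero n (i.1 + 1 + 1) (by omega) (by omega) hβ
  have : Nonempty (Fin d) := ⟨⟨0, by omega⟩⟩
  set κ₀ := univ.inf' univ_nonempty κ
  set μ₀ := univ.inf' univ_nonempty μ
  have hκ₀ : 0 < κ₀ := (lt_inf'_iff _).2 fun i _ => hκ i
  have hμ₀ : 0 < μ₀ := (lt_inf'_iff _).2 fun i _ => hμ i
  have hn : (0 : ℝ) < n := by exact_mod_cast (show 0 < n by omega)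
  set lam : ℝ := min (1 / (2 * 2 ^ n)) (κ₀ / ((n : ℝ) * n * 2 ^ n))
  refine ⟨lam, lt_min (by positivity) (by positivity), fun D => ?_⟩
  set C : ℝ := (D * 2 ^ n : ℕ) + 2 ^ n / μ₀
  set B : ℝ := (D * 2 ^ n : ℕ) * C * (D * 2 ^ (d + 1))
  have hC : 0 ≤ C := by positivity
  have hB : 0 ≤ B := by positivity
  refine ⟨1 / (B + 1), by positivity, ?_⟩
  intro G _ _ H _ _ hD hgen h2 hlink hex
  have : Fintype G := Fintype.ofFinite G
  have hlam1 : (2 : ℝ) ^ n * lam ≤ 1 / 2 :=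
    le_trans (mul_le_mul_of_nonneg_left (min_le_left _ _) (by positivity)) (le_of_eq (by field_simp))
  have hlam2 : (n : ℝ) * n * (2 ^ n * lam) ≤ κ₀ := by
    rw [← mul_assoc]
    exact (le_div_iff₀' (by positivity)).1 (min_le_right _ _)
  have hlam0 : 0 ≤ lam := le_min (by positivity) (by positivity)
  have hT : ∀ t ∈ tops H, t.card = n := fun t ht => by
    obtain ⟨g, rfl⟩ := (mem_tops H).1 ht
    exact card_ch H g
  intro k hk
  set F := face (tops H) (d + 1)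
  intro f
  set i : Fin d := ⟨k, hk⟩
  have hmix : Mix (H := H) (κ i) := mix_of_rankTwo H hgen hlam0 hlam1 h2
    (hlam2.trans (inf'_le _ (mem_univ i)))
  obtain ⟨a, ha⟩ := core (k := k + 1) hβ (hμ i) hD
    (fun s hs h1 h2 => hlink s _ hs h1 (by omega)) (hex (k + 1) (by omega) (by omega))
    (hsz i) hmix (ext0 f)
  refine ⟨fun σ => a σ.1, ?_⟩
  have hf0 : ∀ σ, f σ = ext0 f σ.1 := fun σ => by unfold ext0; rw [dif_pos σ.2]
  have h1 : ∀ σ, (f - cbd F k fun σ => a σ.1) σ = (ext0 f + delta a) σ.1 := fun σ => by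
    rw [Pi.sub_apply, cbd_apply, Pi.add_apply, ← hf0, CharTwo.sub_eq_add]
  have h2' : ∀ τ, cbd F (k + 1) f τ = delta (ext0 f) τ.1 := fun τ => by
    rw [← cbd_apply (ext0 f) τ]
    exact congrArg (fun φ => cbd F (k + 1) φ τ) (funext hf0)
  have hn1 : d + 1 ≤ n := by omega
  have e1 := cnorm_le hT (show k + 1 ≤ d + 1 by omega) hn1 (by omega) hD _ _ h1
  have e2 := mass_le hT (show k + 1 + 1 ≤ d + 1 by omega) hn1 (by omega) hD _ _ h2'
  set X : ℝ := (F.card : ℝ)
  set N1 := cnorm d F (k + 1) (f - cbd F k fun σ => a σ.1)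
  set N2 := cnorm d F (k + 1 + 1) (cbd F (k + 1) f)
  have hN2 : 0 ≤ N2 := sum_nonneg fun σ _ => by positivity
  have hX : (0 : ℝ) ≤ X := Nat.cast_nonneg _
  have hle : N1 ≤ B * N2 := by
    calc N1 ≤ (D * 2 ^ n : ℕ) * (mass (tops H) (k + 1) (ext0 f + delta a) : ℝ) / X := e1
      _ ≤ (D * 2 ^ n : ℕ) * (C * mass (tops H) (k + 1 + 1) (delta (ext0 f))) / X := by
          refine div_le_div_of_nonneg_right (mul_le_mul_of_nonneg_left ?_ (Nat.cast_nonneg _)) hX
          refine ha.trans (mul_le_mul_of_nonneg_right ?_ (Nat.cast_nonneg _))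
          exact add_le_add le_rfl
            (div_le_div_of_nonneg_left (by positivity) hμ₀ (inf'_le _ (mem_univ i)))
      _ = (D * 2 ^ n : ℕ) * C * (mass (tops H) (k + 1 + 1) (delta (ext0 f)) / X) := by ring
      _ ≤ (D * 2 ^ n : ℕ) * C * (D * 2 ^ (d + 1) * N2) :=
          mul_le_mul_of_nonneg_left e2 (by positivity)
      _ = B * N2 := by simp only [B]; ring
  rw [one_div, ← div_eq_inv_mul, div_le_iff₀ (by linarith)]
  linarith

end Vale.Agent.P067.Alld.G

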