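import Vale.Agent.P067.Alld.Defs

/-!
P067, module G: spectral descent on a coset complex, written as averages over a finite group.
-/

set_option linter.unusedSectionVars false

namespace Vale.Agent.P067.Alld.G

open Finset

variable {G : Type} [Group G] [Fintype G]

/-- Right invariance. -/
def Inv (K : Subgroup G) (f : G → ℝ) : Prop := ∀ a, ∀ u ∈ K, f (a * u) = f a

/-- The average over the left cosets of `K`. -/
noncomputable def proj (K : Subgroup G) (f : G → ℝ) (a : G) : ℝ :=
  haveI := Classical.decPred (· ∈ K)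
  (∑ u : K, f (a * u)) / Fintype.card K

section Proj

open Classical

variable {K L : Subgroup G} {f g h : G → ℝ}

theorem Inv.mono (hf : Inv K f) (hLK : L ≤ K) : Inv L f := fun a u hu => hf a u (hLK hu)

theorem Inv.sub (hf : Inv K f) (hg : Inv K g) : Inv K (f - g) := fun a u hu => by
  simp [hf a u hu, hg a u hu]

theorem proj_apply (f : G → ℝ) (a : G) :
    proj K f a = (∑ u : K, f (a * u)) / Fintype.card K := by
  unfold proj; congr!

theorem inv_proj (K : Subgroup G) (f : G → ℝ) : Inv K (proj K f) := by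
  intro a v hv
  simp only [proj_apply]
  congr 1
  refine Fintype.sum_equiv (Equiv.mulLeft ⟨v, hv⟩) _ _ fun u => ?_
  simp [mul_assoc]

theorem proj_of_inv (hf : Inv K f) : proj K f = f := by
  funext a
  rw [proj_apply, sum_congr rfl fun (u : K) _ => hf a u u.2]
  simp

theorem proj_sub (f g : G → ℝ) : proj K (f - g) = proj K f - proj K g := by
  funext a
  simp only [proj_apply, Pi.sub_apply, sum_sub_distrib, sub_div]

theorem proj_mul_inv (hh : Inv K h) (f : G → ℝ) : proj K (h * f) = h * proj K f := by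
  funext a
  simp only [proj_apply, Pi.mul_apply]
  rw [← mul_div_assoc, mul_sum]
  congr 1
  exact sum_congr rfl fun u _ => by rw [hh a u u.2]

theorem proj_mono (hfg : ∀ a, f a ≤ g a) (a : G) : proj K f a ≤ proj K g a := by
  simp only [proj_apply]
  exact div_le_div_of_nonneg_right (sum_le_sum fun u _ => hfg _) (by positivity)

theorem proj_add (f g : G → ℝ) : proj K (f + g) = proj K f + proj K g := by
  funext a
  simp only [proj_apply, Pi.add_apply, sum_add_distrib, add_div]

theorem proj_const (c : ℝ) (a : G) : proj K (fun _ => c) a = c := by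
  simp [proj_apply]

theorem proj_le_one_of_le (c : ℝ) (hf : ∀ a, f a ≤ c) (a : G) : proj K f a ≤ c :=
  (proj_mono (g := fun _ => c) hf a).trans_eq (proj_const c a)

theorem proj_nonneg (hf : ∀ a, 0 ≤ f a) (a : G) : 0 ≤ proj K f a := by
  simp only [proj_apply]
  exact div_nonneg (sum_nonneg fun u _ => hf _) (by positivity)

theorem sum_proj_mul (hh : Inv K h) (f : G → ℝ) :
    ∑ a, proj K f a * h a = ∑ a, f a * h a := by
  have hK : (Fintype.card K : ℝ) ≠ 0 := Nat.cast_ne_zero.2 Fintype.card_ne_zero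
  simp only [proj_apply, div_mul_eq_mul_div, ← sum_div, sum_mul]
  rw [div_eq_iff hK, sum_comm]
  have : ∀ u : K, ∑ a, f (a * u) * h a = ∑ a, f a * h a := fun u =>
    Fintype.sum_equiv (Equiv.mulRight (u : G)) _ _ fun a => by simp [hh a u u.2]
  rw [sum_congr rfl fun u _ => this u, sum_const, card_univ, nsmul_eq_mul, mul_comm]

theorem sum_proj (f : G → ℝ) : ∑ a, proj K f a = ∑ a, f a := by
  simpa using sum_proj_mul (h := fun _ => (1 : ℝ)) (K := K) (fun _ _ _ => rfl) f

theorem proj_proj (hLK : L ≤ K) (f : G → ℝ) : proj K (proj L f) = proj K f := by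
  funext a
  simp only [proj_apply, ← sum_div]
  rw [sum_comm]
  have : ∀ v : L, ∑ u : K, f (a * u * v) = ∑ u : K, f (a * u) := fun v =>
    Fintype.sum_equiv (Equiv.mulRight (⟨v, hLK v.2⟩ : K)) _ _ fun u => by simp [mul_assoc]
  rw [sum_congr rfl fun v _ => this v, sum_const, card_univ, nsmul_eq_mul,
    mul_div_cancel_left₀ _ (Nat.cast_ne_zero.2 Fintype.card_ne_zero)]

/-- Pythagoras for the average. -/
theorem sum_mul_eq (f g : G → ℝ) :
    ∑ a, f a * g a
      = ∑ a, proj K f a * proj K g a + ∑ a, (f - proj K f) a * (g - proj K g) a := by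
  have h1 := sum_proj_mul (inv_proj K g) f
  have h2 := sum_proj_mul (inv_proj K f) g
  have h3 : ∀ a, (f - proj K f) a * (g - proj K g) a
      = f a * g a - f a * proj K g a - g a * proj K f a + proj K f a * proj K g a := fun a => by
    simp only [Pi.sub_apply]; ring
  rw [sum_congr rfl fun a _ => h3 a, sum_add_distrib, sum_sub_distrib, sum_sub_distrib]
  have h4 : ∑ a, proj K g a * proj K f a = ∑ a, proj K f a * proj K g a :=
    sum_congr rfl fun a _ => mul_comm _ _
  linarith

theorem sum_sq_eq (f : G → ℝ) :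
    ∑ a, f a ^ 2 = ∑ a, proj K f a ^ 2 + ∑ a, (f - proj K f) a ^ 2 := by
  simpa [sq] using sum_mul_eq (K := K) f f

theorem sum_sub_proj_sq_le (f : G → ℝ) : ∑ a, (f - proj K f) a ^ 2 ≤ ∑ a, f a ^ 2 := by
  rw [sum_sq_eq (K := K) f]
  exact le_add_of_nonneg_left (sum_nonneg fun a _ => sq_nonneg _)

theorem proj_sub_proj (f : G → ℝ) : proj K (f - proj K f) = 0 := by
  rw [proj_sub, proj_of_inv (inv_proj K f), sub_self]

end Proj

variable {n : ℕ} (H : Fin n → Subgroup G)

theorem inter_anti {E E' : Finset (Fin n)} (h : E ⊆ E') : inter H E' ≤ inter H E :=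
  le_iInf₂ fun l hl => iInf₂_le l (h hl)

/-- The bound `S` for one pair of types over `E`. -/
def Pair (E : Finset (Fin n)) (y z : Fin n) (S : ℝ) : Prop :=
  ∀ f g : G → ℝ, Inv (inter H (insert y E)) f → Inv (inter H (insert z E)) g →
    proj (inter H E) f = 0 → proj (inter H E) g = 0 →
      ∑ a, f a * g a ≤ S * (∑ a, f a ^ 2 + ∑ a, g a ^ 2) / 2

/-- The bound `S` for all pairs over `E`. -/
def Pairs (E : Finset (Fin n)) (S : ℝ) : Prop :=
  ∀ y z, y ∉ E → z ∉ E → y ≠ z → Pair H E y z S

/-- The bound is attained below one when neighbouring types generate. -/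
theorem pairs_lt_one (hgen : Generated H) (E : Finset (Fin n)) :
    ∃ S : ℝ, 0 ≤ S ∧ S < 1 ∧ Pairs H E S := by
  classical
  let Vy : Fin n → Submodule ℝ (G → ℝ) := fun y =>
    { carrier := {f | Inv (inter H (insert y E)) f ∧ proj (inter H E) f = 0}
      add_mem' := fun {f g} hf hg => ⟨fun a u hu => by simp [hf.1 a u hu, hg.1 a u hu],
        by rw [proj_add, hf.2, hg.2, add_zero]⟩
      zero_mem' := ⟨fun a u _ => rfl, by funext a; simp [proj_apply]⟩
      smul_mem' := fun c f hf => ⟨fun a u hu => by simp [hf.1 a u hu], by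
        funext a
        have h0 := congrFun hf.2 a
        simp only [proj_apply, Pi.smul_apply, smul_eq_mul, Pi.zero_apply, ← mul_sum,
          mul_div_assoc] at h0 ⊢
        rw [h0, mul_zero]⟩ }
  have key : ∀ y z : Fin n, ∃ C : ℝ, 0 ≤ C ∧ (y ∉ E → z ∉ E → y ≠ z →
      ∀ f ∈ Vy y, ∀ g ∈ Vy z, ∑ a, f a ^ 2 + ∑ a, g a ^ 2 ≤ C * ∑ a, (f - g) a ^ 2) := by
    intro y z
    by_cases hyz : y ∉ E ∧ z ∉ E ∧ y ≠ z
    swap
    · exact ⟨0, le_rfl, fun a b c => absurd ⟨a, b, c⟩ hyz⟩
    let Lm : (Vy y × Vy z) →ₗ[ℝ] (G → ℝ) :=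
      (Vy y).subtype.coprod (-(Vy z).subtype)
    have hker : LinearMap.ker Lm = ⊥ := by
      rw [LinearMap.ker_eq_bot']
      rintro ⟨⟨f, hf, hf0⟩, ⟨g, hg, hg0⟩⟩ heq
      have hfg : f = g := by
        have : f - g = 0 := by simpa [Lm, ← sub_eq_add_neg] using heq
        exact sub_eq_zero.1 this
      subst hfg
      have hfE : Inv (inter H E) f := by
        intro a u hu
        have hsub : inter H E ≤
            ({ carrier := {v | ∀ b, f (b * v) = f b}
               one_mem' := fun b => by simp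
               mul_mem' := fun {v w} hv hw b => by rw [← mul_assoc, hw, hv]
               inv_mem' := fun {v} hv b => by
                 conv_rhs => rw [← inv_mul_cancel_right b v, hv] } : Subgroup G) := by
          rw [← hgen E y z hyz.1 hyz.2.1 hyz.2.2]
          exact sup_le (fun v hv b => hf b v hv) fun v hv b => hg b v hv
        exact hsub hu a
      have : f = 0 := (proj_of_inv hfE).symm.trans hf0
      subst this
      rfl
    obtain ⟨K, -, hK⟩ := Lm.exists_antilipschitzWith hker
    refine ⟨2 * Fintype.card G * (K : ℝ) ^ 2, by positivity, fun _ _ _ f hf g hg => ?_⟩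
    have h1 : ‖((⟨f, hf⟩ : Vy y), (⟨g, hg⟩ : Vy z))‖ ≤ K * ‖f - g‖ := by
      have := hK.le_mul_dist ((⟨f, hf⟩ : Vy y), (⟨g, hg⟩ : Vy z)) 0
      simpa [dist_eq_norm, Lm, ← sub_eq_add_neg] using this
    have hf1 : ‖f‖ ≤ K * ‖f - g‖ := le_trans (le_max_left _ ‖g‖) (by simpa [Prod.norm_def] using h1)
    have hg1 : ‖g‖ ≤ K * ‖f - g‖ := le_trans (le_max_right ‖f‖ _) (by simpa [Prod.norm_def] using h1)
    have hsum : ∀ k : G → ℝ, ‖k‖ ≤ K * ‖f - g‖ →
        ∑ a, k a ^ 2 ≤ Fintype.card G * ((K : ℝ) ^ 2 * ‖f - g‖ ^ 2) := by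
      intro k hk
      have : ∀ a ∈ (univ : Finset G), k a ^ 2 ≤ (K : ℝ) ^ 2 * ‖f - g‖ ^ 2 := fun a _ => by
        rw [← mul_pow, ← sq_abs (k a)]
        exact pow_le_pow_left₀ (abs_nonneg _) ((norm_le_pi_norm k a).trans hk) 2
      simpa using sum_le_card_nsmul _ _ _ this
    have hnorm : ‖f - g‖ ^ 2 ≤ ∑ a, (f - g) a ^ 2 := by
      obtain ⟨a, ha⟩ : ∃ a, ‖f - g‖ ≤ ‖(f - g) a‖ := by
        obtain ⟨a, -, ha⟩ := (univ : Finset G).exists_max_image (fun a => ‖(f - g) a‖) univ_nonempty
        exact ⟨a, (pi_norm_le_iff_of_nonneg (norm_nonneg _)).2 fun b => ha b (mem_univ _)⟩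
      refine le_trans ?_ (single_le_sum (fun b _ => sq_nonneg ((f - g) b)) (mem_univ a))
      rw [← sq_abs ((f - g) a)]
      exact pow_le_pow_left₀ (norm_nonneg _) ha 2
    have h2 : (0 : ℝ) ≤ Fintype.card G * (K : ℝ) ^ 2 := by positivity
    nlinarith [hsum f hf1, hsum g hg1, mul_le_mul_of_nonneg_left hnorm h2]
  choose C hC0 hC using key
  let C' := 1 + ∑ y, ∑ z, C y z
  have hle : ∀ y z, C y z ≤ C' := fun y z => by
    have h1 : C y z ≤ ∑ z, C y z := single_le_sum (fun z _ => hC0 y z) (mem_univ z)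
    have h2 : ∑ z, C y z ≤ ∑ y, ∑ z, C y z :=
      single_le_sum (f := fun y => ∑ z, C y z) (fun y _ => sum_nonneg fun z _ => hC0 y z)
        (mem_univ y)
    simp only [C']
    linarith
  have hC'1 : 1 ≤ C' := le_add_of_nonneg_right (sum_nonneg fun y _ => sum_nonneg fun z _ => hC0 y z)
  refine ⟨1 - 1 / C', by rw [sub_nonneg, div_le_one (by linarith)]; exact hC'1,
    by have : (0 : ℝ) < 1 / C' := by positivity
       linarith, fun y z hy hz hyz f g hf hg hf0 hg0 => ?_⟩
  have h := hC y z hy hz hyz f ⟨hf, hf0⟩ g ⟨hg, hg0⟩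
  have hq : ∑ a, (f - g) a ^ 2 = ∑ a, f a ^ 2 + ∑ a, g a ^ 2 - 2 * ∑ a, f a * g a := by
    rw [mul_sum, ← sum_add_distrib, ← sum_sub_distrib]
    exact sum_congr rfl fun a _ => by simp only [Pi.sub_apply]; ring
  have h' : ∑ a, f a ^ 2 + ∑ a, g a ^ 2 ≤ C' * ∑ a, (f - g) a ^ 2 :=
    h.trans (mul_le_mul_of_nonneg_right (hle y z) (sum_nonneg fun a _ => sq_nonneg _))
  have h'' : (∑ a, f a ^ 2 + ∑ a, g a ^ 2) / C' ≤ ∑ a, (f - g) a ^ 2 := by
    rw [div_le_iff₀ (by linarith)]
    linarith
  rw [hq] at h''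
  have e : (1 - 1 / C') * (∑ a, f a ^ 2 + ∑ a, g a ^ 2) / 2
      = ((∑ a, f a ^ 2 + ∑ a, g a ^ 2) - (∑ a, f a ^ 2 + ∑ a, g a ^ 2) / C') / 2 := by ring
  rw [e]
  linarith

/-- Oppenheim's step. -/
theorem pairs_step (hgen : Generated H) (E : Finset (Fin n)) {lam : ℝ} (h0 : 0 ≤ lam)
    (h1 : lam ≤ 1 / 2) (hcard : E.card + 3 ≤ n)
    (hup : ∀ x, x ∉ E → Pairs H (insert x E) lam) : Pairs H E (2 * lam) := by
  classical
  have good : ∀ S : ℝ, 0 ≤ S → Pairs H E S → Pairs H E ((1 - lam) * S ^ 2 + lam) := by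
    intro S hS hP y z hy hz hyz f g hf hg hf0 hg0
    obtain ⟨x, hx⟩ : ∃ x, x ∉ insert y (insert z E) := by
      by_contra! hall
      have hu : (univ : Finset (Fin n)) ⊆ insert y (insert z E) := fun x _ => hall x
      have := (card_le_card hu).trans
        ((card_insert_le _ _).trans (Nat.add_le_add_right (card_insert_le _ _) 1))
      rw [card_univ, Fintype.card_fin] at this
      omega
    simp only [mem_insert, not_or] at hx
    obtain ⟨hxy, hxz, hxE⟩ := hx
    have hmono : inter H (insert x E) ≤ inter H E := inter_anti H (subset_insert _ _)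
    set a := proj (inter H (insert x E)) f
    set b := proj (inter H (insert x E)) g
    have ha0 : proj (inter H E) a = 0 := by rw [proj_proj hmono, hf0]
    have hb0 : proj (inter H E) b = 0 := by rw [proj_proj hmono, hg0]
    have small : ∀ (w : Fin n) (k : G → ℝ), w ∉ E → w ≠ x → Inv (inter H (insert w E)) k →
        proj (inter H E) k = 0 →
        ∑ c, proj (inter H (insert x E)) k c ^ 2 ≤ S ^ 2 * ∑ c, k c ^ 2 := by
      intro w k hw hwx hk hk0
      set e := proj (inter H (insert x E)) k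
      have he0 : proj (inter H E) e = 0 := by rw [proj_proj hmono, hk0]
      have hA : ∑ c, k c * e c = ∑ c, e c ^ 2 := by
        rw [← sum_proj_mul (inv_proj _ k) k]; simp [e, sq]
      have scaled : ∀ t : ℝ, t * ∑ c, e c ^ 2 ≤ S * (∑ c, k c ^ 2 + t ^ 2 * ∑ c, e c ^ 2) / 2 := by
        intro t
        have := hP w x hw hxE hwx k (fun c => t * e c) hk
          (fun c u hu => by simp [e, inv_proj _ k c u hu]) hk0
          (by
            rw [show (fun c => t * e c) = (fun _ => t) * e from rfl,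
              proj_mul_inv (fun _ _ _ => rfl), he0, mul_zero])
        simp only [mul_pow, ← mul_sum] at this
        rw [show (∑ c, k c * (t * e c)) = t * ∑ c, k c * e c by
          rw [mul_sum]; exact sum_congr rfl fun c _ => by ring, hA] at this
        exact this
      rcases hS.eq_or_lt with hS0 | hS0
      · have := scaled 1
        subst hS0
        have hnn : 0 ≤ ∑ c, e c ^ 2 := sum_nonneg fun c _ => sq_nonneg _
        nlinarith
      · have := scaled (1 / S)
        field_simp at this
        nlinarith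
    have hfa : Inv (inter H (insert y (insert x E))) (f - a) :=
      (hf.mono (inter_anti H (insert_subset_insert _ (subset_insert _ _)))).sub
        ((inv_proj _ f).mono (inter_anti H (subset_insert _ _)))
    have hgb : Inv (inter H (insert z (insert x E))) (g - b) :=
      (hg.mono (inter_anti H (insert_subset_insert _ (subset_insert _ _)))).sub
        ((inv_proj _ g).mono (inter_anti H (subset_insert _ _)))
    have h2 := hup x hxE y z (by simp [Ne.symm hxy, hy]) (by simp [Ne.symm hxz, hz]) hyz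
      (f - a) (g - b) hfa hgb (proj_sub_proj f) (proj_sub_proj g)
    have hab : ∑ c, a c * b c ≤ (∑ c, a c ^ 2 + ∑ c, b c ^ 2) / 2 := by
      rw [← sum_add_distrib, sum_div]
      exact sum_le_sum fun c _ => by nlinarith [sq_nonneg (a c - b c)]
    have hsplit := sum_mul_eq (K := inter H (insert x E)) f g
    have hsf := sum_sq_eq (K := inter H (insert x E)) f
    have hsg := sum_sq_eq (K := inter H (insert x E)) g
    have sa := small y f hy (Ne.symm hxy) hf hf0
    have sb := small z g hz (Ne.symm hxz) hg hg0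
    nlinarith [mul_le_mul_of_nonneg_left (add_le_add sa sb) (show 0 ≤ 1 - lam by linarith)]
  obtain ⟨S₀, hS₀, hS₀1, hP₀⟩ := pairs_lt_one H hgen E
  set T := {S : ℝ | 0 ≤ S ∧ Pairs H E S}
  have hne : T.Nonempty := ⟨S₀, hS₀, hP₀⟩
  have hbdd : BddBelow T := ⟨0, fun S hS => hS.1⟩
  set S := sInf T
  have hS0 : 0 ≤ S := le_csInf hne fun S hS => hS.1
  have hSP : Pairs H E S := by
    intro y z hy hz hyz f g hf hg hf0 hg0
    set P := (∑ a, f a ^ 2 + ∑ a, g a ^ 2) / 2
    have hP : 0 ≤ P := by positivity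
    refine le_of_forall_pos_le_add fun e he => ?_
    obtain ⟨s, ⟨hs0, hs⟩, hlt⟩ :=
      exists_lt_of_csInf_lt hne (show sInf T < S + e / (P + 1) by
        show S < S + e / (P + 1)
        exact lt_add_of_pos_right _ (by positivity))
    have := hs y z hy hz hyz f g hf hg hf0 hg0
    have h3 : s * P ≤ (S + e / (P + 1)) * P := mul_le_mul_of_nonneg_right hlt.le hP
    have h4 : e / (P + 1) * P ≤ e := by
      rw [div_mul_eq_mul_div, div_le_iff₀ (by linarith)]; nlinarith
    have e1 : ∀ u : ℝ, u * (∑ a, f a ^ 2 + ∑ a, g a ^ 2) / 2 = u * P := fun u => by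
      simp only [P]; ring
    rw [e1] at this ⊢
    linarith
  have hstep : S ≤ (1 - lam) * S ^ 2 + lam :=
    csInf_le hbdd ⟨by nlinarith [sq_nonneg S], good S hS0 hSP⟩
  have hS1 : S < 1 := lt_of_le_of_lt (csInf_le hbdd ⟨hS₀, hP₀⟩) hS₀1
  have hkey : (1 - lam) * S ≤ lam := by
    by_contra h
    push Not at h
    nlinarith [mul_pos (sub_pos.2 hS1) (sub_pos.2 h)]
  have hSle : S ≤ 2 * lam := by nlinarith
  intro y z hy hz hyz f g hf hg hf0 hg0
  refine (hSP y z hy hz hyz f g hf hg hf0 hg0).trans ?_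
  have : 0 ≤ ∑ a, f a ^ 2 + ∑ a, g a ^ 2 := by positivity
  nlinarith

/-- Every pair over every type set, from rank two. -/
theorem pairs_all (hgen : Generated H) {lam : ℝ} (h0 : 0 ≤ lam) (hsmall : 2 ^ n * lam ≤ 1 / 2)
    (h2 : RankTwoLam H lam) (E : Finset (Fin n)) : Pairs H E (2 ^ n * lam) := by
  classical
  have key : ∀ j : ℕ, ∀ E : Finset (Fin n), n ≤ E.card + 2 + j → j ≤ n →
      Pairs H E (2 ^ j * lam) := by
    intro j
    induction j with
    | zero =>
      intro E hE _ y z hy hz hyz f g hf hg hf0 hg0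
      have hEeq : E = (univ.erase y).erase z := by
        refine eq_of_subset_of_card_le (fun x hx => ?_) ?_
        · simp only [mem_erase, mem_univ, and_true]
          exact ⟨fun e => hz (e ▸ hx), fun e => hy (e ▸ hx)⟩
        · rw [card_erase_of_mem (by simp [Ne.symm hyz]), card_erase_of_mem (mem_univ y), card_univ,
            Fintype.card_fin]
          omega
      subst hEeq
      have e1 : insert y ((univ.erase y).erase z) = univ.erase z := by
        ext x; by_cases x = y <;> simp_all
      have e2 : insert z ((univ.erase y).erase z) = univ.erase y := insert_erase (by simp [Ne.symm hyz])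
      rw [e1] at hf
      rw [e2] at hg
      rw [pow_zero, one_mul]
      refine h2 y z hyz f g hf hg fun a => ?_
      intro _
      constructor
      · have := congrFun hf0 a
        rw [proj_apply, Pi.zero_apply, div_eq_zero_iff] at this
        rcases this with this | this
        · exact (Finset.sum_congr (by ext; simp) fun _ _ => rfl).trans this
        · exact absurd this (Nat.cast_ne_zero.2 (@Fintype.card_ne_zero _ (_) _))
      · have := congrFun hg0 a
        rw [proj_apply, Pi.zero_apply, div_eq_zero_iff] at this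
        rcases this with this | this
        · exact (Finset.sum_congr (by ext; simp) fun _ _ => rfl).trans this
        · exact absurd this (Nat.cast_ne_zero.2 (@Fintype.card_ne_zero _ (_) _))
    | succ j ih =>
      intro E hE hj
      by_cases hlt : n ≤ E.card + 2 + j
      · intro y z hy hz hyz f g hf hg hf0 hg0
        refine (ih E hlt (by omega) y z hy hz hyz f g hf hg hf0 hg0).trans ?_
        have : 0 ≤ ∑ a, f a ^ 2 + ∑ a, g a ^ 2 := by positivity
        have : 0 ≤ (2 : ℝ) ^ j * lam := by positivity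
        rw [pow_succ]; nlinarith
      have hb : (2 : ℝ) ^ j * lam ≤ 1 / 2 :=
        le_trans (mul_le_mul_of_nonneg_right (pow_le_pow_right₀ one_le_two (by omega)) h0) hsmall
      have := pairs_step H hgen E (lam := 2 ^ j * lam) (by positivity) hb (by omega) fun x hx =>
        ih (insert x E) (by rw [card_insert_of_notMem hx]; omega) (by omega)
      rwa [pow_succ, mul_comm ((2 : ℝ) ^ j) 2, mul_assoc]
  exact key n E (by omega) le_rfl

/-- Mixing between two sets of types. -/
theorem mix {K : ℝ} (hK : 0 ≤ K) (hall : ∀ E, Pairs H E K) :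
    ∀ (E P Q : Finset (Fin n)), Disjoint E P → Disjoint E Q → Disjoint P Q → ∀ f g : G → ℝ,
      Inv (inter H (E ∪ P)) f → Inv (inter H (E ∪ Q)) g →
      proj (inter H E) f = 0 → proj (inter H E) g = 0 →
      ∑ a, f a * g a ≤ P.card * Q.card * K * (∑ a, f a ^ 2 + ∑ a, g a ^ 2) / 2 := by
  classical
  suffices H' : ∀ N, ∀ (E P Q : Finset (Fin n)), P.card + Q.card = N → Disjoint E P →
      Disjoint E Q → Disjoint P Q → ∀ f g : G → ℝ,
      Inv (inter H (E ∪ P)) f → Inv (inter H (E ∪ Q)) g →
      proj (inter H E) f = 0 → proj (inter H E) g = 0 →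
      ∑ a, f a * g a ≤ P.card * Q.card * K * (∑ a, f a ^ 2 + ∑ a, g a ^ 2) / 2 from
    fun E P Q => H' _ E P Q rfl
  intro N
  induction N using Nat.strong_induction_on with
  | _ N ih =>
  intro E P Q hN hEP hEQ hPQ f g hf hg hf0 hg0
  rcases P.eq_empty_or_nonempty with hP | hP
  · subst hP
    rw [union_empty] at hf
    rw [(proj_of_inv hf).symm.trans hf0]
    simp
  rcases Q.eq_empty_or_nonempty with hQ | hQ
  · subst hQ
    rw [union_empty] at hg
    rw [(proj_of_inv hg).symm.trans hg0]
    simp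
  have big : ∀ (P Q : Finset (Fin n)) (f g : G → ℝ), P.card + Q.card = N → 2 ≤ P.card →
      Q.Nonempty → Disjoint E P → Disjoint E Q → Disjoint P Q → Inv (inter H (E ∪ P)) f →
      Inv (inter H (E ∪ Q)) g → proj (inter H E) f = 0 → proj (inter H E) g = 0 →
      ∑ a, f a * g a ≤ P.card * Q.card * K * (∑ a, f a ^ 2 + ∑ a, g a ^ 2) / 2 := by
    intro P Q f g hN hP2 hQ hEP hEQ hPQ hf hg hf0 hg0
    obtain ⟨y, hy⟩ := card_pos.1 (show 0 < P.card by omega)
    have hc : (P.erase y).card = P.card - 1 := card_erase_of_mem hy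
    set a := proj (inter H (E ∪ P.erase y)) f
    set b := proj (inter H (E ∪ P.erase y)) g
    have hmono : inter H (E ∪ P.erase y) ≤ inter H E := inter_anti H subset_union_left
    have hQpos := hQ.card_pos
    have hd1 : Disjoint (E ∪ P.erase y) {y} := by
      simp only [disjoint_singleton_right, mem_union, mem_erase, ne_eq, not_true_eq_false,
        false_and, or_false]
      exact fun h => disjoint_left.1 hEP h hy
    have hd2 : Disjoint (E ∪ P.erase y) Q :=
      disjoint_union_left.2 ⟨hEQ, hPQ.mono_left (erase_subset _ _)⟩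
    have hd3 : Disjoint ({y} : Finset (Fin n)) Q := hPQ.mono_left (singleton_subset_iff.2 hy)
    have i1 : Inv (inter H (E ∪ P.erase y ∪ {y})) (f - a) := by
      refine (hf.mono (le_of_eq ?_)).sub ((inv_proj _ f).mono (inter_anti H subset_union_left))
      rw [union_assoc]; congr 2
      ext w; by_cases hw : w = y <;> simp [hw, hy]
    have i2 : Inv (inter H (E ∪ P.erase y ∪ Q)) (g - b) :=
      (hg.mono (inter_anti H (union_subset_union subset_union_left Subset.rfl))).sub
        ((inv_proj _ g).mono (inter_anti H subset_union_left))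
    have h1 := ih (1 + Q.card) (by omega) (E ∪ P.erase y) {y} Q (by simp) hd1 hd2 hd3
      (f - a) (g - b) i1 i2 (proj_sub_proj f) (proj_sub_proj g)
    have h2 := ih ((P.erase y).card + Q.card) (by omega) E (P.erase y) Q rfl
      (hEP.mono_right (erase_subset _ _)) hEQ (hPQ.mono_left (erase_subset _ _)) a g
      (inv_proj _ f) hg (by rw [proj_proj hmono, hf0]) hg0
    have hsplit := sum_mul_eq (K := inter H (E ∪ P.erase y)) f g
    have hab : ∑ c, a c * b c = ∑ c, a c * g c := by
      have := sum_proj_mul (inv_proj (inter H (E ∪ P.erase y)) f) g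
      simpa [a, b, mul_comm] using this
    have hfa := sum_sub_proj_sq_le (K := inter H (E ∪ P.erase y)) f
    have hgb := sum_sub_proj_sq_le (K := inter H (E ∪ P.erase y)) g
    have hasq : ∑ c, a c ^ 2 ≤ ∑ c, f c ^ 2 := by
      rw [sum_sq_eq (K := inter H (E ∪ P.erase y)) f]
      exact le_add_of_nonneg_right (sum_nonneg fun c _ => sq_nonneg _)
    rw [hc, Nat.cast_sub (by omega), Nat.cast_one] at h2
    rw [card_singleton, Nat.cast_one, one_mul] at h1
    have hQK : (0 : ℝ) ≤ Q.card * K := by positivity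
    have hP1 : (0 : ℝ) ≤ (P.card : ℝ) - 1 := by
      have : (2 : ℝ) ≤ P.card := by exact_mod_cast hP2
      linarith
    have m1 := mul_le_mul_of_nonneg_left (add_le_add hfa hgb) hQK
    have m2 := mul_le_mul_of_nonneg_left
      (add_le_add hasq (le_refl (∑ c, g c ^ 2))) (mul_nonneg hP1 hQK)
    nlinarith
  by_cases hP2 : 2 ≤ P.card
  · exact big P Q f g hN hP2 hQ hEP hEQ hPQ hf hg hf0 hg0
  by_cases hQ2 : 2 ≤ Q.card
  · have := big Q P g f (by omega) hQ2 hP hEQ hEP hPQ.symm hg hf hg0 hf0
    rw [sum_congr rfl fun a _ => mul_comm (g a) (f a)] at this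
    linarith
  obtain ⟨y, rfl⟩ := card_eq_one.1 (show P.card = 1 by have := hP.card_pos; omega)
  obtain ⟨z, rfl⟩ := card_eq_one.1 (show Q.card = 1 by have := hQ.card_pos; omega)
  rw [union_singleton] at hf hg
  simp only [card_singleton, Nat.cast_one, one_mul]
  exact hall E y z (fun h => disjoint_left.1 hEP h (mem_singleton_self y))
    (fun h => disjoint_left.1 hEQ h (mem_singleton_self z)) (by simpa using hPQ) f g hf hg hf0 hg0

end Vale.Agent.P067.Alld.G
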